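import Vale.Agent.P022D.G.Defs

/-! # P022 route K, block G: the pseudo-character attached to a quotient of the Hecke ring in which
a prime `p` is nilpotent (all weights at least two, level divisible by `8 p`): statements -/

set_option linter.all false

open scoped MatrixGroups ModularForm NumberField

noncomputable section

namespace Vale.Agent.P022K.G

open Vale.Agent.P022 Vale.Agent.P022D.G

/-- the Eisenstein word `T_ℓ - ℓ - 1` -/
def wE {N : ℕ} (ℓ : PA N) : Wd N := wT ℓ - ((ℓ.1 + 1 : ℕ) : Wd N)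

/-- the pseudo-character with its determinant and the inertia groups at the primes `q ≠ p` which
divide the level exactly -/
structure PSp (p N : ℕ) {B : Type} [CommRing B] (β : Wd N →+* B) (t : GQ → B) (d : GQ →* Bˣ) :
    Prop extends PS0 N β t d where
  cyc : ∃ a : ℕ, ∀ g : GQ, (∀ ζ : Qb, ζ ^ (p ^ a * N) = 1 → g ζ = ζ) → d g = 1
  dc : ∀ c, IsConj c → (d c : B) = -1
  i1 : ∀ M q : ℕ, N = M * q → q.Prime → ¬ q ∣ M → q ≠ p → ∀ σ, Inert q σ → t σ = 1 + d σ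

/-- **GALp** -/
def GALp : Prop := ∀ (p N : ℕ) [NeZero N], p.Prime → 8 ∣ N → p ∣ N → ∀ K : Finset ℕ,
  (∀ i ∈ K, 1 ≤ i) → ∀ (B : Type) [CommRing B] (s : ℕ), (p : B) ^ s = 0 → ∀ β : Wd N →+* B,
  (∀ Q, (∀ i ∈ K, sg N i Q = 0) → β Q = 0) → ∀ ℓ₀ : PA N, (p : ℤ) ∣ (ℓ₀.1 : ℤ) - 1 →
  IsUnit (β (wE ℓ₀)) → ∃ t d, PSp p N β t d

end Vale.Agent.P022K.G
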