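import Vale.Agent.P022K.G.Nil
import Vale.Agent.P022K.G.Defs
import Vale.Agent.P022D.G.Key0

/-! # P022 route K, block G: from the deep group to forms -/

set_option linter.all false

open scoped MatrixGroups ModularForm
open CongruenceSubgroup

noncomputable section

namespace Vale.Agent.P022K.G

open Vale.Agent.P022 Vale.Agent.P022.H161.CLat Vale.Agent.P022.H161.COp Vale.Agent.P022D.G

/-- a number prime to `p` is a unit if `p` is nilpotent -/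
theorem cop_unit {B : Type} [CommRing B] {p s m : ℕ} (hp : p.Prime) (hs : (p : B) ^ s = 0)
    (hm : ¬ p ∣ m) : IsUnit (m : B) := by
  obtain ⟨a, b, h⟩ := Nat.isCoprime_iff_coprime.2
    (((Nat.Prime.coprime_iff_not_dvd hp).2 hm).pow_left s)
  have h1 := congrArg (Int.cast : ℤ → B) h
  push_cast at h1
  rw [hs, mul_zero, zero_add] at h1
  exact IsUnit.of_mul_eq_one_right _ h1

theorem pow_unit {B : Type} [CommRing B] {p s : ℕ} (hp : p.Prime) (hs : (p : B) ^ s = 0) {x y : B}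
    (h : IsUnit (x - y)) (M : ℕ) : IsUnit (x ^ p ^ M - y ^ p ^ M) := by
  obtain ⟨r, hr⟩ := exists_add_pow_prime_pow_eq hp (x - y) y M
  rw [sub_add_cancel] at hr
  have h1 : IsNilpotent (x ^ p ^ M - y ^ p ^ M - (x - y) ^ p ^ M) := by
    rw [hr]
    refine ⟨s, ?_⟩
    rw [add_assoc, add_comm (y ^ p ^ M), ← add_assoc, add_sub_cancel_right, add_sub_cancel_left]
    simp only [mul_pow, hs, zero_mul]
  have h2 := h1.isUnit_add_right_of_commute (h.pow (p ^ M)) (Commute.all _ _)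
  rwa [sub_add_cancel] at h2

theorem not_dvd_pow {N p : ℕ} (hp : p.Prime) (hN : p ∣ N) (ℓ : PA N) (M : ℕ) : ¬ ℓ.1 ∣ p ^ M :=
  fun h => ℓ.2.2 (((ℓ.2.1.dvd_of_dvd_pow h).trans hN).mul_left 2)

/-- a word which kills the restrictions of all cocycles to the deep group lies in the kernel -/
theorem key0 {p N N₀ : ℕ} [NeZero N] (hp : p.Prime) (hpN : p ∣ N) (hN : N₀ ∣ N) {K : Finset ℕ}
    (hK : ∀ i ∈ K, 1 ≤ i) {B : Type} [CommRing B] {s : ℕ} (hs : (p : B) ^ s = 0) (β : Wd N →+* B)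
    (hβ : ∀ Q, Kil N N N₀ K Q → β Q = 0) (ℓ₀ : PA N) (h1 : (p : ℤ) ∣ (ℓ₀.1 : ℤ) - 1)
    (hT : IsUnit (β (wE ℓ₀))) : ∃ n₀ : ℕ, ∀ n M : ℕ, n₀ ≤ n → n ≤ M → ∀ Q : Wd N,
      (∀ w, w + 1 ∈ K → ∀ u : ZC (Gm N N₀) w, Van (p ^ M) (p ^ n) (rW hN w Q u)) → β Q = 0 := by
  haveI := fg_Gm hN
  have fin : ∀ w, Module.Finite ℤ (ZC (Gm N N₀) w) := fun w => finite_Z1 fun p => by
    funext i
    simp [actM_apply, AA_one, Matrix.one_apply]
  obtain ⟨e, he, hl⟩ := LatP.abs2 (fun w => ZC (Gm N N₀) w) (fun w => Bsat (AA (Gm N N₀) w))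
    (K.image (· - 1)) (fun w => (rW hN w).toRingHom.toAddMonoidHom) fun _ => ⊤
  obtain ⟨a, m, hm, rfl⟩ := Nat.exists_eq_pow_mul_and_not_dvd he p hp.ne_one
  refine ⟨s + a, fun n M hn hM Q hQ => ?_⟩
  have p0 : ∀ k, p ^ k ≠ 0 := fun k => pow_ne_zero k hp.ne_zero
  have hk : ((p ^ M : ℕ) : ℤ) ∣ (ℓ₀.1 : ℤ) ^ p ^ M - 1 := by
    have := dvd_sub_pow_of_dvd_sub h1 M
    rw [one_pow] at this
    rw [Nat.cast_pow]
    exact (pow_dvd_pow _ (Nat.le_succ M)).trans this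
  set X : Wd N := wT ℓ₀ ^ p ^ M - ((ℓ₀.1 + 1 : ℕ) : Wd N) ^ p ^ M with hX
  have uX : IsUnit (β X) := by
    rw [hX, map_sub, map_pow, map_pow]
    exact pow_unit hp hs (by rwa [wE, map_sub] at hT) M
  obtain ⟨R, hR⟩ := hl (p ^ n) (X * Q) (p0 n) fun w hw u _ => by
    obtain ⟨i, hi, rfl⟩ := Finset.mem_image.1 hw
    obtain ⟨v, hv⟩ := nil hN (p0 n) (pow_dvd_pow p hM) ℓ₀ (not_dvd_pow hp hpN ℓ₀ M) hk
      (hQ (i - 1) (by rw [Nat.sub_add_cancel (hK i hi)]; exact hi) u)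
    refine ⟨v, BZ_le ?_⟩
    show rW hN (i - 1) (X * Q) u - p ^ n • v ∈ _
    rw [map_mul]
    exact hv
  obtain ⟨k, rfl⟩ := Nat.exists_eq_add_of_le hn
  have hY : Kil N N N₀ K (m • (X * Q) - p ^ (s + k) • R) := by
    intro i hi f hf
    obtain ⟨w, rfl⟩ := Nat.exists_eq_add_of_le' (hK i hi)
    refine kil_of hN w _ (fun u => ?_) f hf
    obtain ⟨c, hc, hcu⟩ := hR w (Finset.mem_image.2 ⟨w + 1, hi, rfl⟩) u trivial
    refine ⟨c * (p ^ a : ℕ), mul_ne_zero hc (by exact_mod_cast p0 a), ?_⟩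
    have h1 : (p ^ a * m) • rW hN w (X * Q) u - p ^ (s + a + k) • rW hN w R u =
        p ^ a • rW hN w (m • (X * Q) - p ^ (s + k) • R) u := by
      rw [map_sub, map_nsmul, map_nsmul]
      show _ = p ^ a • (m • rW hN w (X * Q) u - p ^ (s + k) • rW hN w R u)
      rw [smul_sub, smul_smul, smul_smul, ← pow_add, add_comm s a, add_assoc]
    have h2 : c • (((p ^ a * m) • rW hN w (X * Q) u -
        p ^ (s + a + k) • rW hN w R u : ZC (Gm N N₀) w) : Gm N N₀ → Fin (w + 1) → ℤ) ∈ _ := hcu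
    rw [h1, AddSubgroup.coe_nsmul, ← natCast_zsmul, smul_smul] at h2
    exact h2
  have h3 := hβ _ hY
  rw [map_sub, map_nsmul, map_nsmul, map_mul, nsmul_eq_mul, nsmul_eq_mul, Nat.cast_pow,
    pow_add (p : B), hs, zero_mul, zero_mul, sub_zero,
    (cop_unit hp hs hm).mul_right_eq_zero, uX.mul_right_eq_zero] at h3
  exact h3

end Vale.Agent.P022K.G
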