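import Vale.Agent.P022K.G.Gal
import Vale.Agent.P022K.G.Key0
import Vale.Agent.P022D.G.Gal2
import Vale.Agent.P022D.G.I1g

/-! # P022 route K, block G: assembly of `GALp` -/

set_option linter.all false

open scoped MatrixGroups
open CongruenceSubgroup

noncomputable section

namespace Vale.Agent.P022K.G

open Vale.Agent.P022 Vale.Agent.P022.H161.CLat Vale.Agent.P022.H161.COp
open Vale.Agent.P022D.G (mem_Gm' mem_Hp neg_mem i1_of igug)
open Vale.Agent.P022.H527.L3 (det_eq)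
open Vale.Agent.P019P P025H816 P025H492
open Vale.Agent.P027M.M (Mdl GH L Lv Act)
open Vale.Agent.P027M.Th (Kap)

theorem lk_of {N N₀ P E : ℕ} (h0 : N₀ ∣ N) (hz : N₀ * P ≠ 0) (h4 : ¬ N₀ * P ∣ 4)
    (hE : E = N * P * P) {H : Subgroup (ZMod E)ˣ} (hH : ∀ (u : (ZMod E)ˣ) (x : ℤ),
      (x : ZMod E) = u → (u ∈ H ↔ ∃ s : ℤˣ, ((N₀ * P : ℕ) : ℤ) ∣ s * x - 1)) :
    Lk N N₀ P (GH E H) := by
  refine ⟨h0, by exact_mod_cast hz, fun e => h4 (by exact_mod_cast e), fun g => ?_⟩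
  rw [← hE]
  refine ⟨fun ⟨a, u, hu, e⟩ => ⟨a, (hH u _ e.symm).1 hu⟩, fun ⟨a, b⟩ => ?_⟩
  have h5 : ((g 1 1 : ℤ) : ZMod E) * ((g 0 0 : ℤ) : ZMod E) = 1 := by
    have h6 := congrArg (Int.cast : ℤ → ZMod E) (det_eq g)
    push_cast at h6
    rw [(ZMod.intCast_zmod_eq_zero_iff_dvd _ _).2 a, mul_zero, sub_zero] at h6
    exact (mul_comm _ _).trans h6
  exact ⟨a, Units.mkOfMulEqOne _ _ h5, (hH _ (g 1 1) rfl).2 b, rfl⟩

theorem ex_lev (X : Mdl) {E : ℕ} {H : Subgroup (ZMod E)ˣ} (hL : Lv E) (hH : -1 ∈ H) {m : ℕ}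
    (hm : 0 < m) : ∃ (_ : CFF Qb (L (GH E H))) (_ : Act X E H m), ∃ κ, Kap (GH E H) m κ := by
  have hX := P027M.J.j_min X
  have md := P022D.I12.mid hX.grp hL hH
  haveI : CFF Qb (L (GH E H)) := hX.cffs _ md.hi (P022D.I12.fidx hX.grp hL hH)
  obtain ⟨A⟩ := hX.act E H hL hH m
  exact ⟨this, A, P027M.Th.kap0 E _ md _ hm⟩

theorem galp : GALp := by
  intro p N _ hp h8 hpN K hK1 B _ s hs β hβ ℓ₀ h1 h0
  obtain ⟨X⟩ := P027M.M.mdl
  obtain ⟨n, hn⟩ := key0 hp hpN dvd_rfl hK1 hs β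
    (fun Q h => hβ Q fun i hi => LinearMap.ext fun f => h i hi f fun γ a b =>
      f.slash_action_eq' _ ⟨γ, ((mem_Gm' (dvd_refl N)).2 ⟨a, b⟩).2, rfl⟩) ℓ₀ h1 h0
  obtain ⟨P, hP⟩ : ∃ P, P = p ^ (n + n) := ⟨_, rfl⟩
  have p0 : 0 < p ^ n := pow_pos hp.pos n
  have P0 : 0 < P := hP ▸ pow_pos hp.pos _
  have N0 := Nat.pos_of_ne_zero (NeZero.ne N)
  have hL : Lv (N * P * P) :=
    ⟨by positivity, (((by norm_num : 4 ∣ 8).trans h8).mul_right _).mul_right _⟩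
  haveI : NeZero (N * P * P) := ⟨hL.pos.ne'⟩
  haveI : NeZero (p ^ n) := ⟨p0.ne'⟩
  have hH := mem_Hp (dvd_mul_right (N * P) P)
  obtain ⟨_, A, κ, hκ⟩ := ex_lev X hL (neg_mem hH) p0
  have lk := lk_of dvd_rfl (by positivity)
    (fun e => absurd ((h8.mul_right P).trans e) (by norm_num)) rfl hH
  have hm : p ^ n * p ^ n ∣ P := by rw [hP, pow_add]
  have hd : p ^ n ∣ N * P * P := ((dvd_mul_left _ _).trans hm).mul_left _
  have hc : ∀ ℓ : PA N, ℓ.1.Coprime (N * P * P) := fun ℓ => by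
    have := (Nat.Prime.coprime_iff_not_dvd ℓ.2.1).2 (hP ▸ not_dvd_pow hp hpN ℓ (n + n))
    exact (ℓ.coprime.mul_right this).mul_right this
  refine galP (sy A hκ p0 hd hL (neg_mem hH)) hc N0.ne' hd (a := n + n + (n + n))
    (by rw [hP, pow_add p (n + n)]; ring) β (fun Q hQ => hn n (n + n) le_rfl (by omega) Q
    fun w _ u => hP ▸ rs_van lk hm hκ fun j => ?_) fun M₀ q e hq hM₀ hqp σ hσ => ?_
  · rw [rs_W A rfl hc lk hm hκ p0 hd hL (neg_mem hH), hQ]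
    rfl
  · have q3 : ∀ k, ¬ q ∣ p ^ k := fun k h =>
      hqp ((Nat.prime_dvd_prime_iff_eq hq hp).1 (hq.dvd_of_dvd_pow h))
    have q4 : ¬ q ∣ P := hP ▸ q3 _
    have q2 : q ≠ 2 := by
      rintro rfl
      exact hM₀ (by omega)
    have m8 : 8 ∣ M₀ := Nat.Coprime.dvd_of_dvd_mul_right
      (((Nat.coprime_primes Nat.prime_two hq).2 q2.symm).pow_left 3) (e ▸ h8)
    have M0 : 0 < M₀ := Nat.pos_of_ne_zero fun h => N0.ne' (by rw [e, h, zero_mul])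
    refine ⟨q3 n, i1_of (igug X) (M := M₀ * P * P) (n := M₀ * P) (by rw [e]; ring) A
      ⟨by positivity, (((by norm_num : 4 ∣ 8).trans m8).mul_right _).mul_right _⟩ hq (fun h => ?_)
      (q3 n) (m8.mul_right _) (dvd_mul_right _ _) (fun u x hx => ?_) hσ⟩
    · exact ((hq.dvd_mul.1 h).elim (fun h => (hq.dvd_mul.1 h).elim hM₀ q4) q4)
    · rw [show M₀ * P * q = N * P by rw [e]; ring]
      exact hH u x hx

end Vale.Agent.P022K.G
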