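import Vale.Agent.P022K.G.Res
import Vale.Agent.P022K.G.Defs
import Vale.Agent.P022D.G.Gal

/-! # P022 route K, block G: words and the Galois group on the Kummer classes -/

set_option linter.all false

open scoped MatrixGroups
open CongruenceSubgroup

noncomputable section

namespace Vale.Agent.P022K.G

open Vale.Agent.P022 Vale.Agent.P022.H161.CLat Vale.Agent.P022.H161.COp
open Vale.Agent.P022D.G (Wd wT wS Inert PS0 Gm ZC opZ BZ rW rW_S dm_spec comm_word kk kk_cyc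
  cyc_low cyc_inert gala frob)
open Vale.Agent.P022.H527.L3 (rho rho_apply)
open Vale.Agent.P022.H420.L3 (M2 coe_mul cast_iff word_gen)
open Vale.Agent.P022.H231.L3 (al IsDel det_al al_pos)
open Vale.Agent.P019P P025H816 P025H492
open Vale.Agent.P027M.M (Mdl GH L Lv Act)
open Vale.Agent.P027M.TW (HA)
open Vale.Agent.P027M.Th (Kap)
open Vale.Agent.P022.H853 (cyc cyc_spec cyc_frob cyc_conj isOpen_cyc)

theorem pair {N P E : ℕ} (h0 : (P : ℤ) ≠ 0) (hE : E = N * P * P) {a : ℤ} {d : SL(2, ℤ)}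
    (hd : IsDel 1 E a d) :
    ∃ δ : SL(2, ℤ), IsDel P (N * P : ℕ) a δ ∧ (δ : M2) * Dd P = Dd P * (d : M2) := by
  subst hE
  obtain ⟨δ, e⟩ := cj_up h0 1 d ((dr _ P).trans hd.1)
  obtain ⟨-, b, c, k⟩ := (cj_iff h0).1 e
  rw [Units.val_one, one_mul] at b c k
  refine ⟨δ, ⟨?_, (dvd_mul_right _ _).trans (dvd_of_eq b.symm), ?_⟩, by simpa using e⟩
  · refine Int.dvd_of_mul_dvd_mul_right h0 ?_
    rw [← Nat.cast_mul]
    exact hd.1.trans (dvd_of_eq c.symm)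
  · rw [k]
    exact (dl _ P).trans hd.2.2

theorem al_cj {P l : ℕ} {δ d : SL(2, ℤ)} (e : (δ : M2) * Dd P = Dd P * (d : M2))
    (i : Option (Fin l)) : al P l δ i * Dd P = Dd P * al 1 l d i := by
  cases i with
  | some j =>
    ext a b
    fin_cases a <;> fin_cases b <;> simp [al, Dd, Matrix.mul_apply, Fin.sum_univ_two]
  | none =>
    have c : (!![(l : ℤ), 0; 0, 1] : M2) * Dd P = Dd P * !![(l : ℤ), 0; 0, 1] := by
      ext a b
      fin_cases a <;> fin_cases b <;> simp [Dd, Matrix.mul_apply, Fin.sum_univ_two, mul_comm]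
    rw [al, al, mul_assoc, c, ← mul_assoc, e, mul_assoc]

/-- a module with Hecke operators and a Galois action -/
structure Sy (E m : ℕ) (Y : Type) [AddCommGroup Y] where
  act : GQ →* AddMonoid.End Y
  T : ℕ → AddMonoid.End Y
  dia : (ZMod E)ˣ →* AddMonoid.End Y
  tor : ∀ a b : ℤ, (a : ZMod m) = b → ∀ y : Y, a • y = b • y
  c1 : ∀ l l', Commute (T l) (T l')
  c2 : ∀ l a, Commute (T l) (dia a)
  c3 : ∀ l g, Commute (T l) (act g)
  c4 : ∀ a g, Commute (dia a) (act g)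
  neg : dia (-1) = 1
  opn : IsOpen {g : GQ | act g = 1}
  unr : ∀ l : ℕ, l.Prime → ¬ l ∣ E → ∀ g, Inert l g → act g = 1
  es : ∀ l : ℕ, l.Prime → ¬ l ∣ E → ∀ g, IsFrob l g → ∀ a : (ZMod E)ˣ, (a : ZMod E) = l →
    ∀ x, T l x = act g x + l • act g⁻¹ (dia a x)

section abs

variable {N m E : ℕ} {Y : Type} [AddCommGroup Y] (A : Sy E m Y) (hE : ∀ ℓ : PA N, ℓ.1.Coprime E)

/-- words on the module, one twist for every exponent -/
def aE : Wd N →+* (ℕ → AddMonoid.End Y) :=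
  (FreeAlgebra.lift ℤ (Sum.elim (fun (ℓ : PA N) (e : ℕ) => ℓ.1 ^ e • A.T ℓ.1)
    fun (ℓ : PA N) (e : ℕ) =>
      ℓ.1 ^ (2 * e + 1) • A.dia (ZMod.unitOfCoprime ℓ.1 (hE ℓ)))).toRingHom

theorem aE_T (ℓ : PA N) (e : ℕ) : aE A hE (wT ℓ) e = ℓ.1 ^ e • A.T ℓ.1 :=
  congrFun (FreeAlgebra.lift_ι_apply _ _) e

theorem aE_S (ℓ : PA N) (e : ℕ) :
    aE A hE (wS ℓ) e = ℓ.1 ^ (2 * e + 1) • A.dia (ZMod.unitOfCoprime ℓ.1 (hE ℓ)) :=
  congrFun (FreeAlgebra.lift_ι_apply _ _) e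

include A in
theorem torE {a b : ℕ} (e : (a : ZMod m) = b) (x : AddMonoid.End Y) : a • x = b • x := by
  refine AddMonoidHom.ext fun y => ?_
  change a • x y = b • x y
  rw [← natCast_zsmul, ← natCast_zsmul]
  exact A.tor _ _ (by rw [Int.cast_natCast, Int.cast_natCast, e]) _

variable [NeZero E] [NeZero m]

/-- twists by powers of the cyclotomic character -/
def tw (hd : m ∣ E) (f : GQ →* AddMonoid.End Y) (p : ℕ → ℕ) :
    GQ →* (ℕ → AddMonoid.End Y) where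
  toFun g e := kk E g ^ p e • f g
  map_one' := funext fun e => by
    rw [map_one, torE A (b := 1) (by rw [Nat.cast_pow, kk_cyc hd]; simp), one_smul]; rfl
  map_mul' g k := funext fun e => by
    rw [Pi.mul_apply, smul_mul_smul_comm, map_mul]
    exact torE A (by simp only [Nat.cast_pow, Nat.cast_mul, kk_cyc hd, map_mul, Units.val_mul,
      mul_pow]) _

theorem tw_one (hd : m ∣ E) (f : GQ →* AddMonoid.End Y) (p : ℕ → ℕ) {g : GQ}
    (h1 : cyc m g = 1) (e : ℕ) : tw A hd f p g e = f g :=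
  (torE A (a := kk E g ^ p e) (b := 1) (by rw [Nat.cast_pow, kk_cyc hd, h1]; simp) _).trans
    (one_smul _ _)

/-- the twisted Galois action -/
abbrev rE (hd : m ∣ E) := tw A hd A.act id

/-- the determinant -/
abbrev dE (hd : m ∣ E) := tw A hd (A.dia.comp (cyc E)) fun e => 2 * e + 1

/-- the trace in closed form -/
theorem tE (hd : m ∣ E) (g : GQ) {l : ℕ} (hl : (cyc m g : ZMod m) = l) (e : ℕ) :
    (rE A hd g + dE A hd g * rE A hd g⁻¹) e =
      l ^ e • (A.act g + l • (A.dia (cyc E g) * A.act g⁻¹)) ∧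
    dE A hd g e = l ^ (2 * e + 1) • A.dia (cyc E g) := by
  refine ⟨?_, torE A (a := kk E g ^ (2 * e + 1))
    (by rw [Nat.cast_pow, kk_cyc hd, hl, Nat.cast_pow]) _⟩
  change kk E g ^ e • A.act g +
    (kk E g ^ (2 * e + 1) • A.dia (cyc E g)) * (kk E g⁻¹ ^ e • A.act g⁻¹) = _
  rw [smul_mul_smul_comm]
  refine Eq.trans ?_ (nsmul_add _ _ _).symm
  rw [← mul_nsmul']
  congr 1
  · exact torE A (by rw [Nat.cast_pow, kk_cyc hd, hl, Nat.cast_pow]) _
  · refine torE A ?_ _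
    have e1 : (cyc m g : ZMod m) * cyc m g⁻¹ = 1 := by
      rw [← Units.val_mul, ← map_mul, mul_inv_cancel, map_one, Units.val_one]
    simp only [Nat.cast_pow, Nat.cast_mul, kk_cyc hd, ← hl]
    calc _ = ((cyc m g : ZMod m) * cyc m g⁻¹) ^ e * ((cyc m g : ZMod m) ^ e * cyc m g) := by ring
      _ = _ := by rw [e1, one_pow, one_mul]

theorem galL (hN : N ≠ 0) (hd : m ∣ E) {B : Type} [CommRing B] (β : Wd N →+* B)
    (hβ : ∀ Q, aE A hE Q = 0 → β Q = 0) :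
    ∃ t d, PS0 N β t d ∧ ∀ g, ∃ P Q, aE A hE P = rE A hd g + dE A hd g * rE A hd g⁻¹ ∧
      aE A hE Q = dE A hd g ∧ t g = β P ∧ (d g : B) = β Q := by
  have c5 : ∀ a b, Commute (A.dia a) (A.dia b) := fun a b => (Commute.all a b).map A.dia
  have cm : ∀ {a b : AddMonoid.End Y} (_ : Commute a b) (m k : ℕ),
      Commute (m • a) (k • b) := fun h m k => (h.smul_left m).smul_right k
  have op : ∀ (f : GQ →* AddMonoid.End Y) p, IsOpen {g : GQ | f g = 1} →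
      IsOpen {g : GQ | tw A hd f p g = 1} :=
    fun f p hf => Subgroup.isOpen_mono (H₁ := f.ker ⊓ (cyc m).ker) (H₂ := (tw A hd f p).ker)
      (fun g hg => funext fun e => (tw_one A hd f p hg.2 e).trans hg.1)
      (hf.inter (isOpen_cyc m))
  have nd : ∀ ℓ : PA N, ¬ ℓ.1 ∣ E := fun ℓ => (Nat.Prime.coprime_iff_not_dvd ℓ.2.1).1 (hE ℓ)
  refine gala frob N _ (aE A hE) _ _ hN
    (fun P Q => comm_word _ _ (fun s => (comm_word _ _ (fun s' => ?_) Q).symm) P)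
    (fun Q g => comm_word _ _ ?_ Q) (fun Q g => comm_word _ _ ?_ Q)
    (fun g k => Commute.pi fun e => cm (A.c4 _ _) _ _)
    (fun g k => Commute.pi fun e => cm (c5 _ _) _ _)
    (op _ _ A.opn) (op _ _ ?_) (fun ℓ g hg => ?_) (fun ℓ φ hφ => ?_) B β hβ
  · refine Commute.pi fun e => ?_
    rcases s with ℓ | ℓ <;> rcases s' with ℓ' | ℓ'
    · change Commute (aE A hE (wT ℓ') e) (aE A hE (wT ℓ) e)
      rw [aE_T, aE_T]; exact cm (A.c1 _ _) _ _
    · change Commute (aE A hE (wS ℓ') e) (aE A hE (wT ℓ) e)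
      rw [aE_T, aE_S]; exact cm (A.c2 _ _).symm _ _
    · change Commute (aE A hE (wT ℓ') e) (aE A hE (wS ℓ) e)
      rw [aE_T, aE_S]; exact cm (A.c2 _ _) _ _
    · change Commute (aE A hE (wS ℓ') e) (aE A hE (wS ℓ) e)
      rw [aE_S, aE_S]; exact cm (c5 _ _) _ _
  · rintro (ℓ | ℓ) <;> refine Commute.pi fun e => ?_
    · change Commute (aE A hE (wT ℓ) e) _
      rw [aE_T]; exact cm (A.c3 _ _) _ _
    · change Commute (aE A hE (wS ℓ) e) _
      rw [aE_S]; exact cm (A.c4 _ _) _ _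
  · rintro (ℓ | ℓ) <;> refine Commute.pi fun e => ?_
    · change Commute (aE A hE (wT ℓ) e) _
      rw [aE_T]; exact cm (A.c2 _ _) _ _
    · change Commute (aE A hE (wS ℓ) e) _
      rw [aE_S]; exact cm (c5 _ _) _ _
  · exact Subgroup.isOpen_mono (H₁ := (cyc E).ker) (H₂ := (A.dia.comp (cyc E)).ker)
      (fun g hg => by rw [MonoidHom.mem_ker, MonoidHom.comp_apply, hg, map_one]) (isOpen_cyc E)
  · have h1 : cyc E g = 1 := cyc_inert ℓ.2.1 (nd ℓ) hg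
    exact ⟨funext fun e => (tw_one A hd _ _ (cyc_low hd h1) e).trans (A.unr ℓ.1 ℓ.2.1 (nd ℓ) g hg),
      funext fun e => (tw_one A hd _ _ (cyc_low hd h1) e).trans (by
        rw [MonoidHom.comp_apply, h1, map_one]; rfl)⟩
  · have h1 := cyc_frob ℓ.2.1 (nd ℓ) hφ
    have h2 : ZMod.unitOfCoprime ℓ.1 (hE ℓ) = cyc E φ := Units.ext h1.symm
    have h3 := tE A hd φ (cyc_frob ℓ.2.1 (fun h => nd ℓ (h.trans hd)) hφ)
    refine ⟨funext fun e => ?_, funext fun e => by rw [aE_S, (h3 e).2, h2]⟩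
    rw [aE_T, (h3 e).1, (A.c4 _ _).eq]
    congr 1
    exact AddMonoidHom.ext (A.es ℓ.1 ℓ.2.1 (nd ℓ) φ hφ _ h1)

theorem galP (hN : N ≠ 0) (hd : m ∣ E) {p a : ℕ} (ha : E = p ^ a * N) {B : Type} [CommRing B]
    (β : Wd N →+* B) (hβ : ∀ Q, aE A hE Q = 0 → β Q = 0)
    (hI : ∀ M₀ q : ℕ, N = M₀ * q → q.Prime → ¬ q ∣ M₀ → q ≠ p → ∀ σ, Inert q σ → ¬ q ∣ m ∧ ∀ y z,
      z = A.act σ y - y → A.act σ z = A.dia (cyc E σ) z) : ∃ t d, PSp p N β t d := by
  obtain ⟨t, d, h0, h⟩ := galL A hE hN hd β hβ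
  have eq : ∀ {P Q}, aE A hE P = aE A hE Q → β P = β Q := fun e =>
    sub_eq_zero.1 (by rw [← map_sub]; exact hβ _ (by rw [map_sub, e, sub_self]))
  refine ⟨t, d, h0, ⟨a, fun g hg => ?_⟩, fun c hc => ?_, fun M₀ q e hq hM hp σ hσ => ?_⟩
  · obtain ⟨P, Q, -, a, -, b⟩ := h g
    have h1 : cyc E g = 1 := by
      obtain ⟨c, -, c2, -⟩ := P027M.TW.cy.2 E (Nat.pos_of_ne_zero (NeZero.ne E))
      refine (c2 g (cyc E g) fun ζ h => cyc_spec g h).trans
        ((c2 g (cyc E 1) fun ζ h => ?_).symm.trans (map_one _))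
      rw [← cyc_spec 1 h]
      exact hg ζ (by rw [← ha]; exact h)
    refine Units.ext (b.trans ((eq (Q := 1) ?_).trans (map_one β)))
    rw [a, map_one]
    exact funext fun e => (tw_one A hd _ _ (cyc_low hd h1) e).trans (by
      rw [MonoidHom.comp_apply, h1, map_one]; rfl)
  · obtain ⟨P, Q, -, a, -, b⟩ := h c
    refine b.trans ((eq (Q := -1) ?_).trans (by rw [map_neg, map_one]))
    rw [a, map_neg, map_one]
    refine funext fun e => AddMonoidHom.ext fun y => ?_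
    change kk E c ^ (2 * e + 1) • A.dia (cyc E c) y = -y
    rw [show cyc E c = -1 from Units.ext (cyc_conj hc), A.neg, ← natCast_zsmul, ← neg_one_zsmul]
    refine A.tor _ _ ?_ y
    rw [Int.cast_natCast, Nat.cast_pow, kk_cyc hd, cyc_conj hc, pow_succ, pow_mul]
    simp
  · obtain ⟨P, Q, a, a', b, b'⟩ := h σ
    obtain ⟨h2, hi⟩ := hI M₀ q e hq hM hp σ hσ
    have h1 : cyc m σ = 1 := cyc_inert hq h2 hσ
    have h3 := tE A hd σ (l := 1) (by rw [h1, Units.val_one, Nat.cast_one])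
    rw [b, b', ← map_one β, ← map_add]
    refine eq (funext fun k => ?_)
    rw [a, map_add, map_one, a', (h3 k).1, Pi.add_apply, (h3 k).2, one_pow, one_pow, one_smul,
      one_smul, one_smul]
    refine AddMonoidHom.ext fun y => ?_
    have h4 : A.act σ (A.act σ⁻¹ y) = y := by
      change (A.act σ * A.act σ⁻¹) y = y
      rw [← map_mul, mul_inv_cancel, map_one]; rfl
    have h5 := hi (A.act σ⁻¹ y) _ rfl
    rw [h4, map_sub, map_sub, h4] at h5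
    change A.act σ y + A.dia (cyc E σ) (A.act σ⁻¹ y) = y + A.dia (cyc E σ) y
    rw [sub_eq_sub_iff_add_eq_add] at h5
    rw [h5, add_comm]

end abs

section lev

variable {X : Mdl} {N N₀ P m E : ℕ} {H : Subgroup (ZMod E)ˣ} [CFF Qb (L (GH E H))]
  (A : Act X E H m) (hE : E = N * P * P) (hc : ∀ ℓ : PA N, ℓ.1.Coprime E)
  {κ : Additive (HK Qb (L (GH E H)) m) →+ (SL(2, ℤ) → ZMod m)}

/-- the Kummer classes as a module with operators -/
def sy (hκ : Kap (GH E H) m κ) (h0 : 0 < m) (hd : m ∣ E) (hL : Lv E) (hH : -1 ∈ H) :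
    Sy E m (HA Qb (L (GH E H)) m) where
  act := A.act
  T := A.T
  dia := A.dia
  tor _ _ e y := tor hκ e y
  c1 := ((P027M.J.j_min X).comm E H hL hH _ A).1
  c2 := ((P027M.J.j_min X).comm E H hL hH _ A).2.1
  c3 := ((P027M.J.j_min X).comm E H hL hH _ A).2.2.1
  c4 := ((P027M.J.j_min X).comm E H hL hH _ A).2.2.2.1
  neg := ((P027M.J.j_min X).comm E H hL hH _ A).2.2.2.2 _ hH
  opn := (P027M.J.j_min X).opn E H hL hH _ A h0.ne'
  unr l hl h g hg := (P027M.J.j_min X).unr E H hL hH _ A l hl h (fun k => h (k.trans hd)) g hg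
  es l hl h g hg a ha := (P027M.J.j_min X).es E H hL hH _ A l hl h (fun k => h (k.trans hd)) g hg a ha

theorem rs_congr (h : Lk N N₀ P (GH E H)) (hm : m * m ∣ P) (hκ : Kap (GH E H) m κ) {w : ℕ}
    (j : Fin (w + 1)) {u v : ZC (Gm N N₀) w} (e : u - v ∈ BZ _ w) :
    rs h hm hκ j u = rs h hm hκ j v :=
  sub_eq_zero.1 ((map_sub (rs h hm hκ j) u v).symm.trans (rs_BZ h hm hκ j e))

include hE hc in
theorem rs_T (h : Lk N N₀ P (GH E H)) (hm : m * m ∣ P) (hκ : Kap (GH E H) m κ) {w : ℕ}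
    (j : Fin (w + 1)) (ℓ : PA N) (u : ZC (Gm N N₀) w) :
    rs h hm hκ j (rW h.dvd w (wT ℓ) u) = ((ℓ.1 ^ (w - j) : ℕ) : ℤ) • A.T ℓ.1 (rs h hm hκ j u) := by
  obtain ⟨d, hd⟩ := IsDel.exists 1 E ℓ.1 (by
    rw [one_mul]; exact Nat.isCoprime_iff_coprime.2 (hc ℓ))
  obtain ⟨δ, h1, h2⟩ := pair h.ne hE hd
  have nd := (Nat.Prime.coprime_iff_not_dvd ℓ.2.1).1 (hc ℓ)
  have hP : ¬ ℓ.1 ∣ P := fun e => nd (hE ▸ e.mul_left _)
  rw [rs_congr h hm hκ j (T_sub h.dvd ℓ hP h1 u),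
    rs_op h hm hκ X _ (dp_al h.dvd h1) (fun i => by rw [det_al]; exact copP ℓ hP)
      (al_cj h2) (al_pos ℓ.2.1.pos d) (T := A.T ℓ.1) (A.T_rep _ ℓ.2.1 nd d hd),
    one_pow, one_mul, Nat.cast_pow]
  rfl

include hE in
theorem rs_S (h : Lk N N₀ P (GH E H)) (hm : m * m ∣ P) (hκ : Kap (GH E H) m κ) {w : ℕ}
    (j : Fin (w + 1)) (ℓ : PA N) (u : ZC (Gm N N₀) w) :
    rs h hm hκ j (rW h.dvd w (wS ℓ) u) = ((ℓ.1 ^ (2 * (w - j) + 1) : ℕ) : ℤ) •
      A.dia (ZMod.unitOfCoprime ℓ.1 (hc ℓ)) (rs h hm hκ j u) := by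
  obtain ⟨d, hd⟩ := IsDel.exists 1 E ℓ.1 (by
    rw [one_mul]; exact Nat.isCoprime_iff_coprime.2 (hc ℓ))
  obtain ⟨δ, h1, h2⟩ := pair h.ne hE hd
  have hu : ((ZMod.unitOfCoprime ℓ.1 (hc ℓ) : (ZMod E)ˣ) : ZMod E) = ((d 1 1 : ℤ) : ZMod E) := by
    rw [(cast_iff E _ _).2 hd.2.2, ZMod.coe_unitOfCoprime, Int.cast_natCast]
  have e0 : rW h.dvd w (wS ℓ) u =
      ((ℓ.1 ^ (w + 1) : ℕ) : ℤ) • opZ (P022D.G.repD h.dvd (dm_spec ℓ 0)) w u := by
    rw [rW_S, natCast_zsmul]; rfl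
  rw [e0]
  refine (map_zsmul (rs h hm hκ j) _ _).trans ?_
  rw [rs_congr h hm hκ j (S_sub h.dvd ℓ h1 u),
    rs_op h hm hκ X _ (fun _ => dp_del h.dvd h1) (fun _ => by
        rw [Matrix.SpecialLinearGroup.det_coe]; exact isCoprime_one_right)
      (β := fun _ => (d : M2)) (fun _ => h2) (fun _ => H227.det_SL_pos d) (T := A.dia _)
      ((A.dia_rep _ d hd.1 hu).congr fun x _ _ => by simp [Mdl.pg])]
  refine (mul_zsmul (α := HA Qb (L (GH E H)) m) _ _ _).symm.trans (tor hκ ?_ _)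
  have e := (cast_iff m _ _).2 (((Int.natCast_dvd_natCast.2 ((dvd_mul_left m m).trans hm)).trans
    (dr N P)).trans h1.mul_sub)
  obtain ⟨k, hk⟩ := Nat.exists_eq_add_of_le (Nat.lt_succ_iff.1 j.2)
  have hk' : w - j = k := by omega
  rw [hk']
  push_cast at e ⊢
  calc _ = (((δ 0 0 : ℤ) : ZMod m) * (ℓ.1 : ZMod m)) ^ (j : ℕ) * (ℓ.1 : ZMod m) ^ (2 * k + 1) := by
        rw [congrArg ((ℓ.1 : ZMod m) ^ ·) (show w + 1 = j + k + 1 by omega)]
        ring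
    _ = _ := by rw [e, one_pow, one_mul]

include hE in
theorem rs_W (h : Lk N N₀ P (GH E H)) (hm : m * m ∣ P) (hκ : Kap (GH E H) m κ) (h0 : 0 < m)
    (hd : m ∣ E) (hL : Lv E) (hH : -1 ∈ H) {w : ℕ}
    (j : Fin (w + 1)) (Q : Wd N) (u : ZC (Gm N N₀) w) :
    rs h hm hκ j (rW h.dvd w Q u) = aE (sy A hκ h0 hd hL hH) hc Q (w - j) (rs h hm hκ j u) := by
  refine word_gen (A := ZC (Gm N N₀) w) (B := HA Qb (L (GH E H)) m) (rs h hm hκ j)
    (rW h.dvd w).toRingHom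
    ((Pi.evalRingHom _ (w - j)).comp (aE (sy A hκ h0 hd hL hH) hc)) ?_ Q u
  rintro (ℓ | ℓ) u
  · refine (rs_T A hE hc h hm hκ j ℓ u).trans ((natCast_zsmul _ _).trans ?_)
    exact (DFunLike.congr_fun (aE_T (sy A hκ h0 hd hL hH) hc ℓ (w - j)) _).symm
  · refine (rs_S A hE hc h hm hκ j ℓ u).trans ((natCast_zsmul _ _).trans ?_)
    exact (DFunLike.congr_fun (aE_S (sy A hκ h0 hd hL hH) hc ℓ (w - j)) _).symm

end lev

end Vale.Agent.P022K.G
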