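import Vale.Agent.P022K.G.Tw

/-! # P022 route K, block G: `T_ℓ ^ k - (ℓ + 1) ^ k` kills the kernel of the restriction to the deep
group if `ℓ ^ k ≡ 1` -/

set_option linter.all false

open scoped MatrixGroups ModularForm
open CongruenceSubgroup

noncomputable section

namespace Vale.Agent.P022K.G

open Vale.Agent.P022 Vale.Agent.P022.H161.CLat Vale.Agent.P022.H161.COp Vale.Agent.P022D.G
open Vale.Agent.P022.H527.L3 (rho rho_apply det_eq Rep)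
open Vale.Agent.P022.H420.L3 (M2 Pw act act_diag act_one_mod cast_iff coe_mul)
open Vale.Agent.P022.H231.L3 (al IsDel det_al)

variable {N N₀ P : ℕ}

theorem idl_l (hN : N₀ ∣ N) {X Z : M2} (hX : (N : ℤ) ∣ X 1 0) (hZ : Dp N N₀ P 0 0 Z) :
    Dp N N₀ P 0 0 (X * Z) := by
  obtain ⟨c, rfl⟩ := hN
  obtain ⟨x, hx⟩ := hX
  obtain ⟨⟨a, ha⟩, ⟨b, hb⟩, ⟨e, he⟩, ⟨f, hf⟩⟩ := hZ
  push_cast at *
  rw [sub_zero] at he hf
  constructor <;> rw [Matrix.mul_apply, Fin.sum_univ_two] <;> push_cast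
  · exact ⟨x * N₀ * e + X 1 1 * a, by rw [hx, he, ha]; ring⟩
  · exact ⟨X 0 0 * b + X 0 1 * N₀ * f, by rw [hb, hf]; ring⟩
  · exact ⟨X 0 0 * e + X 0 1 * c * a, by rw [he, ha]; ring⟩
  · exact ⟨x * c * b + X 1 1 * f, by rw [hx, hb, hf]; ring⟩

theorem idl_r (hN : N₀ ∣ N) {Y Z : M2} (hY : (N : ℤ) ∣ Y 1 0) (hZ : Dp N N₀ P 0 0 Z) :
    Dp N N₀ P 0 0 (Z * Y) := by
  obtain ⟨c, rfl⟩ := hN
  obtain ⟨x, hx⟩ := hY
  obtain ⟨⟨a, ha⟩, ⟨b, hb⟩, ⟨e, he⟩, ⟨f, hf⟩⟩ := hZ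
  push_cast at *
  rw [sub_zero] at he hf
  constructor <;> rw [Matrix.mul_apply, Fin.sum_univ_two] <;> push_cast
  · exact ⟨a * Y 0 0 + f * N₀ * x, by rw [hx, hf, ha]; ring⟩
  · exact ⟨N₀ * e * Y 0 1 + b * Y 1 1, by rw [hb, he]; ring⟩
  · exact ⟨e * Y 0 0 + b * c * x, by rw [he, hb, hx]; ring⟩
  · exact ⟨c * a * Y 0 1 + f * Y 1 1, by rw [ha, hf]; ring⟩

theorem Dp.sub {a d : ℤ} {A B : M2} (hA : Dp N N₀ P a d A) (hB : Dp N N₀ P a d B) :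
    Dp N N₀ P 0 0 (A - B) :=
  ⟨dvd_sub hA.h10 hB.h10, dvd_sub hA.h01 hB.h01, by
    have := dvd_sub hA.h00 hB.h00
    rwa [sub_sub_sub_cancel_right, ← sub_zero (_ - _)] at this, by
    have := dvd_sub hA.h11 hB.h11
    rwa [sub_sub_sub_cancel_right, ← sub_zero (_ - _)] at this⟩

theorem Dp.add {a d : ℤ} {A Z : M2} (hA : Dp N N₀ P a d A) (hZ : Dp N N₀ P 0 0 Z) :
    Dp N N₀ P a d (A + Z) :=
  ⟨dvd_add hA.h10 hZ.h10, dvd_add hA.h01 hZ.h01, by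
    have := dvd_add hA.h00 hZ.h00
    rwa [sub_zero, sub_add_eq_add_sub] at this, by
    have := dvd_add hA.h11 hZ.h11
    rwa [sub_zero, sub_add_eq_add_sub] at this⟩

/-- `γ'` is the conjugate of `γ` by `diag(1, d)` modulo the deep group -/
def Cj (P : ℕ) (d : ℤ) (γ γ' : Gm N N₀) : Prop := ∃ A B : M2, Dp N N₀ P 1 d A ∧ Dp N N₀ P 1 d B ∧
  IsCoprime ((N * P : ℕ) : ℤ) A.det ∧ A * rho _ γ = rho _ γ' * B

theorem low10 (hN : N₀ ∣ N) (γ : Gm N N₀) : (N : ℤ) ∣ rho (Gm N N₀) γ 1 0 :=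
  ((mem_Gm hN).1 γ.2).h10

theorem Cj.trans (hN : N₀ ∣ N) {d d' : ℤ} {γ γ' γ'' : Gm N N₀} (h : Cj P d γ γ')
    (h' : Cj P d' γ' γ'') : Cj P (d' * d) γ γ'' := by
  obtain ⟨A, B, a, b, c, e⟩ := h
  obtain ⟨A', B', a', b', c', e'⟩ := h'
  refine ⟨A' * A, B' * B, by simpa only [mul_one] using a'.mul a (dd hN P),
    by simpa only [mul_one] using b'.mul b (dd hN P),
    by rw [Matrix.det_mul]; exact c'.mul_right c, ?_⟩
  rw [mul_assoc, e, ← mul_assoc, e', mul_assoc]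

theorem Cj.uniq (hN : N₀ ∣ N) {d : ℤ} {γ γ' γ'' : Gm N N₀} (h : Cj P d γ γ') (h' : Cj P d γ γ'') :
    Dp N N₀ P 1 1 (rho _ (γ' * γ''⁻¹)) := by
  obtain ⟨A, B, a, b, c, e⟩ := h
  obtain ⟨A', B', a', b', c', e'⟩ := h'
  refine (a.add (idl_r hN (low10 hN γ⁻¹) (idl_l hN (low10 hN γ') (b'.sub b)))).cancel a' (dd hN P)
    (dr N P) c' ?_
  have i1 : rho (Gm N N₀) γ * rho (Gm N N₀) γ⁻¹ = 1 := by rw [← map_mul, mul_inv_cancel, map_one]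
  have i2 : rho (Gm N N₀) γ''⁻¹ * rho (Gm N N₀) γ'' = 1 := by
    rw [← map_mul, inv_mul_cancel, map_one]
  have e1 : rho (Gm N N₀) γ' * B * rho (Gm N N₀) γ⁻¹ = A := by rw [← e, mul_assoc, i1, mul_one]
  have e2 : A' = rho (Gm N N₀) γ'' * B' * rho (Gm N N₀) γ⁻¹ := by rw [← e', mul_assoc, i1, mul_one]
  rw [mul_sub, sub_mul, e1, add_sub_cancel, map_mul, e2, mul_assoc, mul_assoc, mul_assoc,
    ← mul_assoc (rho (Gm N N₀) γ''⁻¹), i2, one_mul]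

theorem cj_refl (hN : N₀ ∣ N) {d : ℤ} (hd : (P : ℤ) ∣ d - 1) (hc : IsCoprime ((N * P : ℕ) : ℤ) d)
    (γ : Gm N N₀) : Cj P d γ γ := by
  have i1 : rho (Gm N N₀) γ * rho (Gm N N₀) γ⁻¹ = 1 := by rw [← map_mul, mul_inv_cancel, map_one]
  refine ⟨!![1, 0; 0, d], rho _ γ⁻¹ * (!![1, 0; 0, d] * rho _ γ), by constructor <;> simp, ?_,
    by rw [Matrix.det_fin_two_of]; simpa using hc, by rw [← mul_assoc, i1, one_mul]⟩
  obtain ⟨y, hy⟩ := hd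
  obtain ⟨x, hx⟩ := low10 hN γ
  obtain ⟨c, hc⟩ := hN
  have hc' : (N : ℤ) = N₀ * c := by exact_mod_cast hc
  have dt := det_eq (γ : SL(2, ℤ))
  rw [rho_apply] at hx
  rw [rho_apply, rho_apply, Subgroup.coe_inv, Matrix.SpecialLinearGroup.coe_inv,
    Matrix.adjugate_fin_two]
  constructor <;> simp only [Matrix.mul_apply, Fin.sum_univ_two, Matrix.of_apply, Matrix.cons_val',
    Matrix.cons_val_zero, Matrix.cons_val_one, Matrix.cons_val_fin_one] <;> push_cast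
  · exact ⟨(γ : SL(2, ℤ)) 0 0 * x * y, by
      linear_combination (γ : SL(2, ℤ)) 0 0 * (d - 1) * hx + (γ : SL(2, ℤ)) 0 0 * N * x * hy⟩
  · exact ⟨-((γ : SL(2, ℤ)) 0 1 * (γ : SL(2, ℤ)) 1 1 * y), by
      linear_combination -((γ : SL(2, ℤ)) 0 1 * (γ : SL(2, ℤ)) 1 1) * hy⟩
  · exact ⟨-((γ : SL(2, ℤ)) 0 1 * c * x * y), by
      linear_combination dt - (γ : SL(2, ℤ)) 0 1 * (d - 1) * hx -
        (γ : SL(2, ℤ)) 0 1 * N * x * hy - (γ : SL(2, ℤ)) 0 1 * x * P * y * hc'⟩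
  · exact ⟨(γ : SL(2, ℤ)) 0 1 * c * x * y, by
      linear_combination d * dt + (γ : SL(2, ℤ)) 0 1 * (d - 1) * hx +
        (γ : SL(2, ℤ)) 0 1 * N * x * hy + (γ : SL(2, ℤ)) 0 1 * x * P * y * hc'⟩

theorem Van.cls {w m : ℕ} {u : ZC (Gm N N₀) w} (hu : Van P m u) {g g' : Gm N N₀}
    (h : Dp N N₀ P 1 1 (rho _ (g * g'⁻¹))) (j : Fin (w + 1)) : ev m u j g = ev m u j g' := by
  have h1 := coc u (g * g'⁻¹) g'
  rw [inv_mul_cancel_right] at h1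
  choose p hp using fun i => (ZMod.intCast_zmod_eq_zero_iff_dvd _ _).1 (hu _ h i)
  have h2 : (u : Gm N N₀ → Fin (w + 1) → ℤ) (g * g'⁻¹) = m • p :=
    funext fun i => by rw [hp, Pi.smul_apply, nsmul_eq_mul]
  rw [ev, h1, h2, map_nsmul, Pi.add_apply, Pi.smul_apply, nsmul_eq_mul, Int.cast_add, Int.cast_mul,
    Int.cast_natCast, ZMod.natCast_self, zero_mul, zero_add, ev]

theorem pow_ev (hN : N₀ ∣ N) {w m : ℕ} (hm : m ∣ P) {ι : Type} [Fintype ι] (i₀ : ι) {α : ι → M2}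
    (r : Rep (rho (Gm N N₀)) α) {d : ℤ} (hα : ∀ i, Dp N N₀ P 1 d (α i))
    (hc : ∀ i, IsCoprime ((N * P : ℕ) : ℤ) (α i).det) {u : ZC (Gm N N₀) w} (hu : Van P m u)
    (j : Fin (w + 1)) (k : ℕ) : (∀ γ : Gm N N₀, ∃ γ', Cj P (d ^ k) γ γ') ∧
      ∀ γ γ' : Gm N N₀, Cj P (d ^ k) γ γ' → ev m ((opZ r w ^ k) u) j γ =
        (Fintype.card ι : ZMod m) ^ k * ((d : ZMod m) ^ k) ^ (w - (j : ℕ)) * ev m u j γ' := by
  have c1 : ∀ γ i, Cj P d γ (r.el γ i) := fun γ i => ⟨_, _, hα i, hα _, hc i, r.eq γ i⟩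
  induction k with
  | zero =>
    have c0 : ∀ γ : Gm N N₀, Cj P (d ^ 0) γ γ := fun γ =>
      cj_refl hN (by simp) (by rw [pow_zero]; exact isCoprime_one_right) γ
    refine ⟨fun γ => ⟨γ, c0 γ⟩, fun γ γ' h => ?_⟩
    rw [pow_zero, pow_zero, pow_zero, one_pow, one_mul, one_mul]
    exact hu.cls ((c0 γ).uniq hN h) j
  | succ k ih =>
    refine ⟨fun γ => (ih.1 (r.el γ i₀)).imp fun γ' h => pow_succ d k ▸ (c1 γ i₀).trans hN h,
      fun γ γ' h => ?_⟩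
    rw [pow_succ' (opZ r w), AddMonoid.End.coe_mul, Function.comp_apply,
      ev_op r fun i => (hα i).md hm, Finset.sum_congr rfl (g := fun _ =>
        (Fintype.card ι : ZMod m) ^ k * ((d : ZMod m) ^ (k + 1)) ^ (w - (j : ℕ)) * ev m u j γ'),
      Finset.sum_const, Finset.card_univ, nsmul_eq_mul]
    · ring
    · intro i _
      obtain ⟨g, hg⟩ := ih.1 (r.el γ i)
      rw [ih.2 _ _ hg, hu.cls (Cj.uniq hN (pow_succ d k ▸ (c1 γ i).trans hN hg) h) j, Int.cast_one,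
        one_pow, pow_succ (d : ZMod m), mul_pow]
      ring

/-- a cocycle which is divisible as a function is divisible -/
theorem div_of {Γ : Subgroup SL(2, ℤ)} {w m : ℕ} (hm : m ≠ 0) {x : ZC Γ w}
    (h : ∀ γ j, ev m x j γ = 0) : ∃ y : ZC Γ w, x = m • y := by
  choose y hy using fun γ j => (ZMod.intCast_zmod_eq_zero_iff_dvd _ _).1 (h γ j)
  have hy' : ∀ γ, (x : Γ → Pw w ℤ) γ = m • y γ := fun γ => funext fun j => by
    rw [hy, Pi.smul_apply, nsmul_eq_mul]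
  have hz : y ∈ ZC Γ w := fun g k => by
    have h1 := coc x g k
    rw [hy', hy', hy', map_nsmul, ← smul_add] at h1
    rw [actM_eq]
    exact nsmul_right_injective hm h1
  exact ⟨⟨y, hz⟩, Subtype.ext (funext hy')⟩

theorem nil (hN : N₀ ∣ N) {w m : ℕ} (h0 : m ≠ 0) (hm : m ∣ P) (ℓ : PA N) (hP : ¬ ℓ.1 ∣ P) {k : ℕ}
    (hk : (P : ℤ) ∣ (ℓ.1 : ℤ) ^ k - 1) {u : ZC (Gm N N₀) w} (hu : Van P m u) :
    ∃ v : ZC (Gm N N₀) w,
      rW hN w (wT ℓ ^ k - ((ℓ.1 + 1 : ℕ) : Wd N) ^ k) u - m • v ∈ BZ (Gm N N₀) w := by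
  obtain ⟨δ, hδ⟩ := ex_del ℓ hP
  set r := repT hN ℓ hP hδ
  have hb : ∀ k : ℕ, (rW hN w (wT ℓ) ^ k) u - (opZ r w ^ k) u ∈ BZ (Gm N N₀) w := by
    intro k
    induction k with
    | zero => simp
    | succ k ih =>
      have h3 := AddSubgroup.add_mem _ (T_sub hN ℓ hP hδ ((rW hN w (wT ℓ) ^ k) u)) (opZ_BZ r ih)
      rw [map_sub, sub_add_sub_cancel] at h3
      rw [pow_succ', pow_succ']
      exact h3
  obtain ⟨v, hv⟩ := div_of h0 (x := (opZ r w ^ k) u - (ℓ.1 + 1) ^ k • u) fun γ j => by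
    have h1 := (pow_ev hN hm none r (dp_al hN hδ) (fun i => by rw [det_al]; exact copP ℓ hP) hu j
      k).2 γ γ (cj_refl hN hk (copP ℓ hP).pow_right γ)
    have h2 := (cast_iff m _ _).2 ((Int.natCast_dvd_natCast.2 hm).trans hk)
    rw [Int.cast_pow, Int.cast_one] at h2
    rw [h2, one_pow, mul_one, Fintype.card_option, Fintype.card_fin] at h1
    rw [ev, AddSubgroup.coe_sub, AddSubgroup.coe_nsmul, Pi.sub_apply, Pi.sub_apply, Pi.smul_apply,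
      Pi.smul_apply, nsmul_eq_mul, Int.cast_sub, Int.cast_mul, Int.cast_natCast, Nat.cast_pow,
      sub_eq_zero]
    exact h1
  refine ⟨v, ?_⟩
  have e : rW hN w (wT ℓ ^ k - ((ℓ.1 + 1 : ℕ) : Wd N) ^ k) u =
      (rW hN w (wT ℓ) ^ k) u - (ℓ.1 + 1) ^ k • u := by
    rw [map_sub, map_pow, ← Nat.cast_pow, map_natCast]
    rfl
  rw [e, ← hv, sub_sub_sub_cancel_right]
  exact hb k

end Vale.Agent.P022K.G
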