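import Vale.Agent.P022K.G.Defs
import Vale.Agent.P022D.G.Ops

/-! # P022 route K, block G: the pseudo-character as operators on a discrete `p`-primary module -/

set_option linter.all false

open scoped MatrixGroups

noncomputable section

namespace Vale.Agent.P022K.G

open Vale.Agent.P022
open Vale.Agent.P022D.G (Wd wT wS sg Inert Law sg_comm fin_words uniq frob)

variable {N : ℕ} [NeZero N]

variable {O V : Type} [CommRing O] [AddCommGroup V] [Module O V]

/-- a discrete module over the Hecke ring on which the word `X` is injective -/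
structure Dsc (p : ℕ) (α : Wd N →+* Module.End O V) (X : Wd N) : Prop where
  kil : ∀ v, ∃ (K : Finset ℕ) (s : ℕ), (∀ i ∈ K, 1 ≤ i) ∧ p ^ s • v = 0 ∧
    ∀ Q, (∀ i ∈ K, sg N i Q = 0) → α Q v = 0
  inj : Function.Injective (α X)

/-- the finite ring through which the words act on a finite set -/
structure Fq (p : ℕ) (α : Wd N →+* Module.End O V) (X : Wd N) (F : Finset V) {B : Type}
    [CommRing B] (β : Wd N →+* B) : Prop where
  sur : Function.Surjective β
  ker : ∀ Q, β Q = 0 ↔ ∀ v ∈ F, α Q v = 0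
  fin : Finite B
  nil : ∃ s : ℕ, (p : B) ^ s = 0
  unit : IsUnit (β X)
  kil : ∃ K : Finset ℕ, (∀ i ∈ K, 1 ≤ i) ∧ ∀ Q, (∀ i ∈ K, sg N i Q = 0) → β Q = 0

variable {p : ℕ} {α : Wd N →+* Module.End O V} {X : Wd N}

theorem Dsc.comm (h : Dsc p α X) (P Q : Wd N) : Commute (α P) (α Q) := by
  refine LinearMap.ext fun v => ?_
  obtain ⟨K, s, -, -, e⟩ := h.kil v
  have := e (P * Q - Q * P) fun i _ => by
    rw [map_sub, map_mul, map_mul, (sg_comm i P Q).eq, sub_self]
  rwa [map_sub, map_mul, map_mul, LinearMap.sub_apply, sub_eq_zero] at this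

theorem Dsc.fq (hp : p ≠ 0) (h : Dsc p α X) (F : Finset V) :
    ∃ (B : Type) (_ : CommRing B) (β : Wd N →+* B), Fq p α X F β := by
  classical
  let c : RingCon (Wd N) :=
    { r := fun P Q => ∀ v ∈ F, α P v = α Q v
      iseqv := ⟨fun _ _ _ => rfl, fun e v hv => (e v hv).symm,
        fun e e' v hv => (e v hv).trans (e' v hv)⟩
      mul' := fun {a b x y} e e' v hv => by
        rw [map_mul, map_mul, Module.End.mul_apply, e' v hv, ← Module.End.mul_apply,
          (h.comm a y).eq, (h.comm b y).eq, Module.End.mul_apply, Module.End.mul_apply, e v hv]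
      add' := fun {a b x y} e e' v hv => by
        rw [map_add, map_add, LinearMap.add_apply, LinearMap.add_apply, e v hv, e' v hv] }
  have sur : Function.Surjective (RingCon.mk' c) := fun x => Quotient.exists_rep x
  have eq : ∀ P Q, RingCon.mk' c P = RingCon.mk' c Q ↔ ∀ v ∈ F, α P v = α Q v := fun P Q =>
    c.eq
  letI : CommRing c.Quotient := { (inferInstance : Ring c.Quotient) with
    mul_comm := fun x y => by
      obtain ⟨P, rfl⟩ := sur x
      obtain ⟨Q, rfl⟩ := sur y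
      rw [← map_mul, ← map_mul, eq]
      intro v _
      rw [map_mul, map_mul, (h.comm P Q).eq] }
  have ker : ∀ Q, RingCon.mk' c Q = 0 ↔ ∀ v ∈ F, α Q v = 0 := fun Q => by
    rw [← map_zero (RingCon.mk' c), eq, map_zero]; rfl
  choose K s hK hs hQ using h.kil
  have two : (p : c.Quotient) ^ F.sup s = 0 := by
    rw [← map_natCast (RingCon.mk' c) p, ← map_pow, ker]
    intro v hv
    obtain ⟨m, hm⟩ := Nat.exists_eq_add_of_le' (Finset.le_sup (f := s) hv)
    rw [← Nat.cast_pow, map_natCast, Module.End.natCast_apply, hm, pow_add,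
      mul_smul, hs, smul_zero]
  have hK' : ∀ i ∈ F.biUnion K, 1 ≤ i := fun i hi => by
    obtain ⟨v, -, hv⟩ := Finset.mem_biUnion.1 hi
    exact hK v i hv
  have kil : ∀ Q, (∀ i ∈ F.biUnion K, sg N i Q = 0) → RingCon.mk' c Q = 0 := fun Q e =>
    (ker Q).2 fun v hv => hQ v Q fun i hi => e i (Finset.mem_biUnion.2 ⟨v, hv, hi⟩)
  have fin : Finite c.Quotient := by
    obtain ⟨S, hS⟩ := fin_words (N := N) _ hK'
    haveI : Module.Finite ℤ c.Quotient := ⟨⟨S.image (RingCon.mk' c), by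
      refine top_le_iff.1 fun x _ => ?_
      obtain ⟨Q, rfl⟩ := sur x
      obtain ⟨Q', h1, h2⟩ := hS Q
      have h3 := kil _ h2
      rw [map_sub, sub_eq_zero] at h3
      rw [h3, Finset.coe_image]
      exact Submodule.apply_mem_span_image_of_mem_span
        (RingCon.mk' c).toAddMonoidHom.toIntLinearMap h1⟩⟩
    refine Module.finite_of_fg_torsion _ fun x =>
      ⟨⟨(p : ℤ) ^ F.sup s, mem_nonZeroDivisors_of_ne_zero (by positivity)⟩, ?_⟩
    show ((p : ℤ) ^ F.sup s) • x = 0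
    rw [zsmul_eq_mul, Int.cast_pow, Int.cast_natCast, two, zero_mul]
  refine ⟨c.Quotient, inferInstance, RingCon.mk' c, sur, ker, fin, ⟨_, two⟩, ?_, _, hK', kil⟩
  have inj : Function.Injective fun x : c.Quotient => RingCon.mk' c X * x := by
    intro x y e
    obtain ⟨P, rfl⟩ := sur x
    obtain ⟨Q, rfl⟩ := sur y
    simp only [← map_mul] at e
    rw [eq] at e ⊢
    intro v hv
    have := e v hv
    rw [map_mul, map_mul] at this
    exact h.inj this
  obtain ⟨y, hy⟩ := Finite.injective_iff_surjective.1 inj 1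
  exact IsUnit.of_mul_eq_one y hy

/-- the operators `t g`, `d g` are given on every finite set by the pseudo-character -/
def Core (p : ℕ) (α : Wd N →+* Module.End O V) (X : Wd N) (t d : GQ → Module.End O V) : Prop :=
  ∀ F : Finset V, ∃ (B : Type) (_ : CommRing B) (β : Wd N →+* B) (t' : GQ → B) (d' : GQ →* Bˣ),
    Fq p α X F β ∧ PSp p N β t' d' ∧ ∀ g P, (β P = t' g → ∀ v ∈ F, t g v = α P v) ∧
      (β P = d' g → ∀ v ∈ F, d g v = α P v)

theorem ex_core (H : GALp) (hp : p.Prime) (h8 : 8 ∣ N) (hN : p ∣ N) {ℓ₀ : PA N}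
    (h1 : (p : ℤ) ∣ (ℓ₀.1 : ℤ) - 1) (h : Dsc p α (wE ℓ₀)) : ∃ t d, Core p α (wE ℓ₀) t d := by
  classical
  choose B iB β fq using h.fq hp.ne_zero
  have ex : ∀ F, ∃ t d, PSp p N (β F) t d := fun F => by
    obtain ⟨s, hs⟩ := (fq F).nil
    obtain ⟨K, hK, e⟩ := (fq F).kil
    exact H p N hp h8 hN K hK (B F) s hs (β F) e ℓ₀ h1 (fq F).unit
  choose t d ps using ex
  choose P hP using fun v g => (fq {v}).sur (t {v} g)
  choose Q hQ using fun v g => (fq {v}).sur (d {v} g)
  have key : ∀ F g X, (β F X = t F g → ∀ v ∈ F, α (P v g) v = α X v) ∧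
      (β F X = d F g → ∀ v ∈ F, α (Q v g) v = α X v) := by
    intro F g X
    have : ∀ v ∈ F, ∃ π : B F →+* B {v}, (∀ Y, π (β F Y) = β {v} Y) ∧
        (∀ g, π (t F g) = t {v} g) ∧ ∀ g, π (d F g) = d {v} g := by
      intro v hv
      let π : B F →+* B {v} := (β F).liftOfSurjective (fq F).sur ⟨β {v}, fun Y hY =>
        ((fq {v}).ker Y).2 fun w hw => by
          rw [Finset.mem_singleton.1 hw]; exact ((fq F).ker Y).1 hY v hv⟩
      have e : ∀ Y, π (β F Y) = β {v} Y := fun Y => RingHom.liftOfRightInverse_comp_apply _ _ _ _ Y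
      obtain ⟨a, b⟩ := uniq frob N _ _ _ _ _ _ _ (NeZero.ne N) ((ps F).toPS0.map π) (ps {v}).toPS0 ∅
        fun ℓ _ => ⟨e _, e _⟩
      exact ⟨π, e, congrFun a, fun g => congrArg (fun x : GQ →* (B {v})ˣ => (x g : B {v})) b⟩
    have z : ∀ v Y Z, β {v} Y = β {v} Z → α Y v = α Z v := fun v Y Z e => by
      have := ((fq {v}).ker (Y - Z)).1 (by rw [map_sub, e, sub_self]) v (Finset.mem_singleton_self v)
      rwa [map_sub, LinearMap.sub_apply, sub_eq_zero] at this
    refine ⟨fun e v hv => ?_, fun e v hv => ?_⟩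
    · obtain ⟨π, a, b, -⟩ := this v hv
      exact z v _ _ (by rw [hP, ← a, e, b])
    · obtain ⟨π, a, -, b⟩ := this v hv
      exact z v _ _ (by rw [hQ, ← a, e, b])
  have lin : ∀ (p : V → V), (∀ F : Finset V, ∃ X, ∀ v ∈ F, p v = α X v) →
      ∃ T : Module.End O V, ∀ v, T v = p v := fun p hp =>
    ⟨{ toFun := p
       map_add' := fun v w => by
        obtain ⟨X, e⟩ := hp {v, w, v + w}
        rw [e v (by simp), e w (by simp), e (v + w) (by simp), map_add]
       map_smul' := fun c v => by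
        obtain ⟨X, e⟩ := hp {v, c • v}
        rw [e v (by simp), e (c • v) (by simp), map_smul]; rfl }, fun _ => rfl⟩
  choose T hT using fun g => lin (fun v => α (P v g) v) fun F => by
    obtain ⟨X, e⟩ := (fq F).sur (t F g)
    exact ⟨X, (key F g X).1 e⟩
  choose D hD using fun g => lin (fun v => α (Q v g) v) fun F => by
    obtain ⟨X, e⟩ := (fq F).sur (d F g)
    exact ⟨X, (key F g X).2 e⟩
  exact ⟨T, D, fun F => ⟨B F, iB F, β F, t F, d F, fq F, ps F, fun g X =>
    ⟨fun e v hv => (hT g v).trans ((key F g X).1 e v hv),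
      fun e v hv => (hD g v).trans ((key F g X).2 e v hv)⟩⟩⟩

namespace Core

variable {t d : GQ → Module.End O V} (h : Core p α X t d)
include h

/-- the operators agree with words on finite sets -/
theorem loc (F : Finset V) (g : GQ) : ∃ P Q, ∀ v ∈ F, t g v = α P v ∧ d g v = α Q v := by
  obtain ⟨B, _, β, t', d', fq, ps, e⟩ := h F
  obtain ⟨P, hP⟩ := fq.sur (t' g)
  obtain ⟨Q, hQ⟩ := fq.sur (d' g)
  exact ⟨P, Q, fun v hv => ⟨(e g P).1 hP v hv, (e g Q).2 hQ v hv⟩⟩

omit h in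
theorem z {F : Finset V} {B : Type} [CommRing B] {β : Wd N →+* B} (fq : Fq p α X F β) {Y Z : Wd N}
    (e : β Y = β Z) {v : V} (hv : v ∈ F) : α Y v = α Z v := by
  have := (fq.ker (Y - Z)).1 (by rw [map_sub, e, sub_self]) v hv
  rwa [map_sub, LinearMap.sub_apply, sub_eq_zero] at this

theorem law : Law t d where
  one := LinearMap.ext fun v => by
    obtain ⟨B, _, β, t', d', fq, ps, e⟩ := h {v}
    rw [(e 1 2).1 (by rw [ps.tf.one, map_ofNat]) v (by simp), map_ofNat]
  comm g k := LinearMap.ext fun v => by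
    obtain ⟨B, _, β, t', d', fq, ps, e⟩ := h {v}
    obtain ⟨P, hP⟩ := fq.sur (t' (g * k))
    rw [(e _ P).1 hP v (by simp), (e _ P).1 (hP.trans (ps.tf.comm g k)) v (by simp)]
  mul g k := LinearMap.ext fun v => by
    classical
    obtain ⟨B, _, β, t', d', fq, ps, e⟩ := h {v, t k v, t (g * k⁻¹) v}
    choose P hP using fun x => fq.sur (t' x)
    obtain ⟨Q, hQ⟩ := fq.sur (d' k)
    have a := z fq (Y := P g * P k) (Z := P (g * k) + Q * P (g * k⁻¹))
      (by rw [map_mul, map_add, map_mul, hP, hP, hP, hP, hQ, ps.tf.mul]) (v := v) (by simp)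
    rw [map_mul, map_add, map_mul] at a
    rw [LinearMap.add_apply, Module.End.mul_apply, Module.End.mul_apply,
      (e g _).1 (hP g) _ (by simp), (e k _).2 hQ _ (by simp), (e k _).1 (hP k) v (by simp),
      (e _ _).1 (hP _) v (by simp), (e _ _).1 (hP _) v (by simp)]
    exact a
  d1 := LinearMap.ext fun v => by
    obtain ⟨B, _, β, t', d', fq, ps, e⟩ := h {v}
    rw [(e 1 1).2 (by rw [map_one, map_one, Units.val_one]) v (by simp), map_one]
  dm g k := LinearMap.ext fun v => by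
    classical
    obtain ⟨B, _, β, t', d', fq, ps, e⟩ := h {v, d k v}
    choose P hP using fun x => fq.sur (d' x)
    rw [Module.End.mul_apply, (e g _).2 (hP g) _ (by simp), (e k _).2 (hP k) v (by simp),
      (e (g * k) (P g * P k)).2 (by rw [map_mul, hP, hP, map_mul, Units.val_mul]) v (by simp),
      map_mul, Module.End.mul_apply]
  opn v := by
    obtain ⟨B, _, β, t', d', fq, ps, e⟩ := h {v}
    obtain ⟨U, a, b, -, c⟩ := ps.opn
    refine ⟨U, a, b, fun u hu => ⟨?_, fun g => ?_⟩⟩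
    · rw [(e u 1).2 (by rw [(c u hu).1, map_one, Units.val_one]) v (by simp), map_one]; rfl
    · obtain ⟨P, hP⟩ := fq.sur (t' g)
      rw [(e g P).1 hP v (by simp), (e _ P).1 (hP.trans ((c u hu).2 g).symm) v (by simp)]

theorem unr (ℓ : PA N) {σ : GQ} (hσ : Inert ℓ.1 σ) : d σ = 1 ∧ ∀ g, t (g * σ) = t g := by
  refine ⟨LinearMap.ext fun v => ?_, fun g => LinearMap.ext fun v => ?_⟩
  · obtain ⟨B, _, β, t', d', fq, ps, e⟩ := h {v}
    obtain ⟨U, -, -, a, c⟩ := ps.opn
    rw [(e σ 1).2 (by rw [(c σ (a ℓ σ hσ)).1, map_one, Units.val_one]) v (by simp), map_one]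
  · obtain ⟨B, _, β, t', d', fq, ps, e⟩ := h {v}
    obtain ⟨U, -, -, a, c⟩ := ps.opn
    obtain ⟨P, hP⟩ := fq.sur (t' g)
    rw [(e g P).1 hP v (by simp), (e _ P).1 (hP.trans ((c σ (a ℓ σ hσ)).2 g).symm) v (by simp)]

theorem frT (ℓ : PA N) {φ : GQ} (hφ : IsFrob ℓ.1 φ) : t φ = α (wT ℓ) := LinearMap.ext fun v => by
  obtain ⟨B, _, β, t', d', fq, ps, e⟩ := h {v}
  exact (e φ _).1 (ps.frT ℓ φ hφ).symm v (by simp)

theorem frS (ℓ : PA N) {φ : GQ} (hφ : IsFrob ℓ.1 φ) : d φ = α (wS ℓ) := LinearMap.ext fun v => by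
  obtain ⟨B, _, β, t', d', fq, ps, e⟩ := h {v}
  exact (e φ _).2 (ps.frS ℓ φ hφ).symm v (by simp)

theorem cyc (v : V) : ∃ a : ℕ, ∀ g : GQ, (∀ ζ : Qb, ζ ^ (p ^ a * N) = 1 → g ζ = ζ) → d g v = v := by
  obtain ⟨B, _, β, t', d', fq, ps, e⟩ := h {v}
  obtain ⟨a, ha⟩ := ps.cyc
  exact ⟨a, fun g hg => by
    rw [(e g 1).2 (by rw [ha g hg, map_one, Units.val_one]) v (by simp), map_one]; rfl⟩

theorem dc {c : GQ} (hc : IsConj c) : d c = -1 := LinearMap.ext fun v => by
  obtain ⟨B, _, β, t', d', fq, ps, e⟩ := h {v}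
  rw [(e c (-1)).2 (by rw [ps.dc c hc, map_neg, map_one]) v (by simp), map_neg, map_one]

theorem i1 {M q : ℕ} (hN : N = M * q) (hq : q.Prime) (hM : ¬ q ∣ M) (hp : q ≠ p) {σ : GQ}
    (hσ : Inert q σ) : t σ = 1 + d σ := LinearMap.ext fun v => by
  obtain ⟨B, _, β, t', d', fq, ps, e⟩ := h {v}
  obtain ⟨Q, hQ⟩ := fq.sur (d' σ)
  rw [LinearMap.add_apply, (e σ Q).2 hQ v (by simp), (e σ (1 + Q)).1
    (by rw [map_add, map_one, hQ, ps.i1 M q hN hq hM hp σ hσ]) v (by simp), map_add, map_one,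
    LinearMap.add_apply]

/-- the orbit of a vector under the words is finite -/
theorem fin (v : V) : (Set.range fun Q => α Q v).Finite := by
  obtain ⟨B, _, β, t', d', fq, ps, e⟩ := h {v}
  haveI := fq.fin
  choose P hP using fq.sur
  refine (Set.finite_range fun b => α (P b) v).subset ?_
  rintro _ ⟨Q, rfl⟩
  exact ⟨β Q, z fq (hP _) (by simp)⟩

/-- everything which commutes with the words commutes with the operators -/
theorem cm {f : V → V} (hf : ∀ Q v, f (α Q v) = α Q (f v)) (g : GQ) (v : V) :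
    f (t g v) = t g (f v) ∧ f (d g v) = d g (f v) := by
  classical
  obtain ⟨P, Q, e⟩ := h.loc {v, f v} g
  rw [(e v (by simp)).1, (e v (by simp)).2, (e (f v) (by simp)).1, (e (f v) (by simp)).2, hf, hf]
  exact ⟨rfl, rfl⟩

/-- a subgroup which is stable under the words is stable under the operators -/
theorem mem {W : Set V} (hW : ∀ Q, ∀ v ∈ W, α Q v ∈ W) (g : GQ) {v : V} (hv : v ∈ W) :
    t g v ∈ W ∧ d g v ∈ W := by
  obtain ⟨P, Q, e⟩ := h.loc {v} g
  rw [(e v (by simp)).1, (e v (by simp)).2]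
  exact ⟨hW _ _ hv, hW _ _ hv⟩

end Core

end Vale.Agent.P022K.G
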