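import Vale.Agent.P022K.G.Tw
import Vale.Agent.P022D.G.Res

/-! # P022 route K, block G: the coefficients of a cocycle as Kummer classes -/

set_option linter.all false

open scoped MatrixGroups
open CongruenceSubgroup

noncomputable section

namespace Vale.Agent.P022K.G

open Vale.Agent.P022 Vale.Agent.P022.H161.CLat Vale.Agent.P022.H161.COp
open Vale.Agent.P022D.G (Cls Gm mem_Gm mem_Gm' ZC opZ BZ mem_BZ coc un un_pow tr_pT)
open Vale.Agent.P022.H527.L3 (rho rho_apply cancel_right det_eq)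
open Vale.Agent.P022.H420.L3 (M2 Pw act act_one act_diag act_one_mod coe_mul cast_iff)
open Vale.Agent.P019P P025H816 P025H492
open Vale.Agent.P027M.M (Mdl GH L Lv Act)
open Vale.Agent.P027M.TW (HA)
open Vale.Agent.P027M.Th (Kap Par pT)

/-- `diag(P, 1)` -/
def Dd (P : ℕ) : M2 := !![(P : ℤ), 0; 0, 1]

section cj

variable {P : ℕ}

theorem cj_iff (h : (P : ℤ) ≠ 0) {s : ℤ} {A B : M2} : A * Dd P = s • (Dd P * B) ↔
    A 0 0 = s * B 0 0 ∧ A 0 1 = s * (P * B 0 1) ∧ A 1 0 * P = s * B 1 0 ∧ A 1 1 = s * B 1 1 := by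
  rw [← Matrix.ext_iff]
  simp only [Dd, Fin.forall_fin_two, Matrix.mul_apply, Fin.sum_univ_two, Matrix.smul_apply,
    smul_eq_mul, Matrix.of_apply, Matrix.cons_val', Matrix.cons_val_zero, Matrix.cons_val_one,
    Matrix.cons_val_fin_one, mul_zero, add_zero, zero_add, mul_one, zero_mul, one_mul]
  constructor
  · rintro ⟨⟨a, b⟩, c, d⟩
    exact ⟨mul_right_cancel₀ h (by linear_combination a), b, c, d⟩
  · rintro ⟨a, b, c, d⟩
    exact ⟨⟨by linear_combination P * a, b⟩, c, d⟩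

theorem Dd_cancel (h0 : (P : ℤ) ≠ 0) {A B : M2} (h : Dd P * A = Dd P * B) : A = B := by
  have e := fun i j => congrFun (congrFun h i) j
  simp only [Dd, Matrix.mul_apply, Fin.sum_univ_two] at e
  ext i j
  fin_cases i
  · exact mul_left_cancel₀ h0 (by simpa using e 0 j)
  · simpa using e 1 j

theorem cj_up (h0 : (P : ℤ) ≠ 0) (s : ℤˣ) (g : SL(2, ℤ)) (h : (P : ℤ) ∣ g 1 0) :
    ∃ γ : SL(2, ℤ), (γ : M2) * Dd P = (s : ℤ) • (Dd P * (g : M2)) := by
  obtain ⟨c, hc⟩ := h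
  have hs : (s : ℤ) * s = 1 := by rw [← Units.val_mul, Int.units_mul_self, Units.val_one]
  refine ⟨⟨!![s * g 0 0, s * (P * g 0 1); s * c, s * g 1 1], ?_⟩,
    (cj_iff h0).2 ⟨rfl, rfl, ?_, rfl⟩⟩
  · rw [Matrix.det_fin_two_of]
    linear_combination (s : ℤ) * s * det_eq g + hs + (s : ℤ) * s * g 0 1 * hc
  · show (s : ℤ) * c * _ = s * g 1 0
    rw [hc]; ring

theorem cj_dn (h0 : (P : ℤ) ≠ 0) (s : ℤˣ) (γ : SL(2, ℤ)) (h : (P : ℤ) ∣ γ 0 1) :
    ∃ g : SL(2, ℤ), (γ : M2) * Dd P = (s : ℤ) • (Dd P * (g : M2)) := by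
  obtain ⟨c, hc⟩ := h
  have hs : (s : ℤ) * s = 1 := by rw [← Units.val_mul, Int.units_mul_self, Units.val_one]
  refine ⟨⟨!![s * γ 0 0, s * c; s * (γ 1 0 * P), s * γ 1 1], ?_⟩,
    (cj_iff h0).2 ⟨?_, ?_, ?_, ?_⟩⟩
  · rw [Matrix.det_fin_two_of]
    linear_combination (s : ℤ) * s * det_eq γ + hs + (s : ℤ) * s * γ 1 0 * hc
  · show γ 0 0 = s * (s * γ 0 0)
    linear_combination -γ 0 0 * hs
  · show γ 0 1 = s * (_ * (s * c))
    linear_combination hc - P * c * hs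
  · show γ 1 0 * _ = s * (s * (γ 1 0 * _))
    linear_combination -(γ 1 0 * P) * hs
  · show γ 1 1 = s * (s * γ 1 1)
    linear_combination -γ 1 1 * hs

end cj

/-- `γ` lies in the deep group and is conjugate to `± g` -/
def Rl {N N₀ : ℕ} (P : ℕ) (γ : Gm N N₀) (g : SL(2, ℤ)) : Prop :=
  Dp N N₀ P 1 1 (rho _ γ) ∧ ∃ s : ℤˣ, rho _ γ * Dd P = (s : ℤ) • (Dd P * (g : M2))

section rl

variable {N N₀ P : ℕ} {γ δ : Gm N N₀} {g k : SL(2, ℤ)}

theorem Rl.uniq (h0 : (P : ℤ) ≠ 0) (h4 : ¬ ((N₀ * P : ℕ) : ℤ) ∣ 4) (h : Rl P γ g) (h' : Rl P δ g) :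
    γ = δ := by
  obtain ⟨c, s, e⟩ := h
  obtain ⟨c', s', e'⟩ := h'
  have hss : s = s' := by
    have a := ((cj_iff h0).1 e).2.2.2
    have b := ((cj_iff h0).1 e').2.2.2
    have c1 := c.h11
    have c2 := c'.h11
    rw [a] at c1
    rw [b] at c2
    by_contra hne
    apply h4
    rcases Int.units_eq_one_or s with rfl | rfl <;> rcases Int.units_eq_one_or s' with rfl | rfl
    · exact absurd rfl hne
    · obtain ⟨x, hx⟩ := dvd_add c1 c2
      simp only [Units.val_neg, Units.val_one] at hx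
      exact ⟨-2 * x, by linear_combination -2 * hx⟩
    · obtain ⟨x, hx⟩ := dvd_add c1 c2
      simp only [Units.val_neg, Units.val_one] at hx
      exact ⟨-2 * x, by linear_combination -2 * hx⟩
    · exact absurd rfl hne
  subst hss
  exact Subtype.ext (Subtype.ext (cancel_right (Z := Dd P)
    (by rw [Dd, Matrix.det_fin_two_of]; simpa using h0) (e.trans e'.symm)))

theorem Rl.mul (hN : N₀ ∣ N) (h : Rl P γ g) (h' : Rl P δ k) : Rl P (γ * δ) (g * k) := by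
  obtain ⟨c, s, e⟩ := h
  obtain ⟨c', s', e'⟩ := h'
  refine ⟨by rw [map_mul]; exact c.mul_one c' (dd hN P), s * s', ?_⟩
  rw [map_mul, mul_assoc, e', Matrix.mul_smul, ← mul_assoc, e, Matrix.smul_mul, smul_smul,
    coe_mul, mul_assoc, Units.val_mul, mul_comm (s : ℤ)]

theorem rl_neg : Rl P (1 : Gm N N₀) (-1) := ⟨by rw [map_one]; exact dp_one N N₀ P, -1, by
  rw [map_one]; simp⟩

end rl

section cf

variable {Γ : Subgroup SL(2, ℤ)} {w m : ℕ}

theorem ev_mul (u : ZC Γ w) (j : Fin (w + 1)) (γ : Γ) {δ : Γ} (h : Cls m m m 1 1 (rho Γ δ)) :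
    ev m u j (γ * δ) = ev m u j γ + ev m u j δ := by
  rw [ev, coc, Pi.add_apply, Int.cast_add, act_one_mod w _ _ h.h01 h.h10 h.h00 h.h11]
  rfl

theorem ev_one (u : ZC Γ w) (j : Fin (w + 1)) : ev m u j 1 = 0 := by
  have := ev_mul (m := m) u j 1 (δ := 1) (by rw [map_one]; constructor <;> simp)
  rw [mul_one] at this
  simpa using this

theorem ev_pow (u : ZC Γ w) (j : Fin (w + 1)) {δ : Γ} (h : Cls m m m 1 1 (rho Γ δ)) (k : ℕ) :
    ev m u j (δ ^ k) = k * ev m u j δ := by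
  induction k with
  | zero => rw [pow_zero, ev_one, Nat.cast_zero, zero_mul]
  | succ k ih => rw [pow_succ, ev_mul u j _ h, ih, Nat.cast_succ, add_mul, one_mul]

open Classical in
/-- the same on the conjugate group -/
def cf {N N₀ : ℕ} (P m : ℕ) (u : ZC (Gm N N₀) w) (j : Fin (w + 1)) (g : SL(2, ℤ)) : ZMod m :=
  if h : ∃ γ : Gm N N₀, Rl P γ g then ev m u j h.choose else 0

end cf

/-- the level data: `G` is the group of the matrices `≡ ± [1, *; 0, 1]` -/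
structure Lk (N N₀ P : ℕ) (G : Subgroup SL(2, ℤ)) : Prop where
  dvd : N₀ ∣ N
  nz : ((N₀ * P : ℕ) : ℤ) ≠ 0
  four : ¬ ((N₀ * P : ℕ) : ℤ) ∣ 4
  mem : ∀ g, g ∈ G ↔ ((N * P * P : ℕ) : ℤ) ∣ g 1 0 ∧ ∃ s : ℤˣ, ((N₀ * P : ℕ) : ℤ) ∣ s * g 1 1 - 1

namespace Lk

variable {N N₀ P : ℕ} {G : Subgroup SL(2, ℤ)} (h : Lk N N₀ P G)
include h

theorem ne : (P : ℤ) ≠ 0 := fun e => h.nz (by rw [Nat.cast_mul, e, mul_zero])

theorem cf_eq {w m : ℕ} (u : ZC (Gm N N₀) w) (j : Fin (w + 1)) {γ : Gm N N₀} {g : SL(2, ℤ)}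
    (r : Rl P γ g) : cf P m u j g = ev m u j γ := by
  have h' : ∃ γ : Gm N N₀, Rl P γ g := ⟨γ, r⟩
  rw [cf, dif_pos h', h'.choose_spec.uniq h.ne h.four r]

theorem ex {g : SL(2, ℤ)} (hg : g ∈ G) : ∃ γ : Gm N N₀, Rl P γ g := by
  obtain ⟨h1, s, h2⟩ := (h.mem g).1 hg
  obtain ⟨γ, e⟩ := cj_up h.ne s g ((dr _ P).trans h1)
  obtain ⟨a, b, c, d⟩ := (cj_iff h.ne).1 e
  have c1 : ((N * P : ℕ) : ℤ) ∣ γ 1 0 := by
    refine Int.dvd_of_mul_dvd_mul_right h.ne ?_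
    rw [← Nat.cast_mul]
    exact c ▸ h1.mul_left _
  have c2 : ((N₀ * P : ℕ) : ℤ) ∣ γ 1 1 - 1 := d ▸ h2
  refine ⟨⟨γ, (mem_Gm' h.dvd).2 ⟨(dl N P).trans c1, (dl N₀ P).trans c2⟩⟩,
    ⟨c1, ((dvd_mul_right _ _).mul_left _).trans (dvd_of_eq b.symm), ?_, c2⟩, s, e⟩
  obtain ⟨x, hx⟩ := (dd h.dvd P).trans c1
  obtain ⟨y, hy⟩ := c2
  exact ⟨-(γ 0 0 * y) + γ 0 1 * x, by
    show γ 0 0 - 1 = _
    linear_combination det_eq γ + γ 0 1 * hx - γ 0 0 * hy⟩

theorem mem_of {γ : Gm N N₀} {g : SL(2, ℤ)} (r : Rl P γ g) : g ∈ G := by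
  obtain ⟨c, s, e⟩ := r
  obtain ⟨-, -, e1, e2⟩ := (cj_iff h.ne).1 e
  refine (h.mem g).2 ⟨?_, s, e2 ▸ c.h11⟩
  rw [← Units.dvd_mul_left (u := s), ← e1, Nat.cast_mul]
  exact mul_dvd_mul_right c.h10 _

theorem par {w m : ℕ} (hm : m * m ∣ P) (u : ZC (Gm N N₀) w) (j : Fin (w + 1)) :
    Par G (cf P m u j) where
  add g hg k hk := by
    obtain ⟨γ, r⟩ := h.ex hg
    obtain ⟨δ, r'⟩ := h.ex hk
    rw [h.cf_eq u j (r.mul h.dvd r'), h.cf_eq u j r, h.cf_eq u j r',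
      ev_mul u j γ (r'.1.md ((dvd_mul_left m m).trans hm))]
  neg := by rw [h.cf_eq u j rl_neg, ev_one]
  out g hg := dif_neg fun ⟨γ, r⟩ => hg (h.mem_of r)
  par g k hg := by
    obtain ⟨γ, r⟩ := h.ex hg
    rw [h.cf_eq u j r]
    obtain ⟨c, s, e⟩ := r
    obtain ⟨e0, -, -, e1⟩ := (cj_iff h.ne).1 e
    obtain ⟨a, ha⟩ := c.h00
    obtain ⟨b, hb⟩ := c.h01
    obtain ⟨x, hx⟩ := c.h10
    obtain ⟨y, hy⟩ := c.h11
    have tr := tr_pT g k
    rw [rho_apply] at ha hb hx hy e0 e1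
    have hs : (s : ℤ) = 1 := by
      rcases Int.units_eq_one_or s with rfl | rfl
      · rfl
      · refine absurd ⟨-a - y, ?_⟩ h.four
        simp only [Units.val_neg, Units.val_one] at e0 e1
        linear_combination -ha - hy + e0 + e1 - tr
    rw [hs] at e0 e1
    obtain rfl : y = -a := mul_left_cancel₀ h.nz (by linear_combination e0 + e1 + tr - ha - hy)
    push_cast at ha hx hy
    have hd : (N₀ * a) * (N₀ * a) + b * (N * x) = 0 :=
      mul_left_cancel₀ (mul_ne_zero h.ne h.ne) (by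
        have := det_eq (γ : SL(2, ℤ))
        rw [hb, hx, sub_eq_iff_eq_add.1 ha, sub_eq_iff_eq_add.1 hy] at this
        linear_combination -this)
    obtain ⟨t, ht⟩ := hm
    have ht' : (P : ℤ) = m * (m * t) := by rw [ht]; push_cast; ring
    have mm : un _ b _ hd (m * t) ∈ Gm N N₀ :=
      (mem_Gm' h.dvd).2 ⟨(dvd_mul_right _ _).mul_left _, by
        show _ ∣ 1 - _ * (_ * a) - 1
        rw [sub_sub_cancel_left]
        exact ((dvd_mul_right _ _).mul_left _).neg_right⟩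
    have d0 : ∀ z, (m : ℤ) ∣ m * t * z := fun z => (dvd_mul_right _ _).mul_right z
    have hγ : γ = ⟨_, mm⟩ ^ m := by
      refine Subtype.ext ?_
      rw [Subgroup.coe_pow, un_pow, ← ht']
      ext i j
      fin_cases i <;> fin_cases j
      · exact (sub_eq_iff_eq_add'.1 ha).trans (by
          show _ = 1 + _ * (_ * a)
          ring)
      · exact hb
      · exact hx.trans (by
          show _ = _ * (_ * x)
          ring)
      · exact (sub_eq_iff_eq_add'.1 hy).trans (by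
          show _ = 1 - _ * (_ * a)
          ring)
    rw [hγ, ev_pow u j ⟨d0 _, d0 b, by
        show _ ∣ 1 + _ * (_ * a) - 1
        rw [add_sub_cancel_left]; exact d0 _, by
        show _ ∣ 1 - _ * (_ * a) - 1
        rw [sub_sub_cancel_left]; exact (d0 _).neg_right⟩, ZMod.natCast_self, zero_mul]

end Lk

section rs

variable {N N₀ P m w : ℕ} {G : Subgroup SL(2, ℤ)} [CFF Qb (L G)] (h : Lk N N₀ P G) (hm : m * m ∣ P)
  {κ : Additive (HK Qb (L G) m) →+ (SL(2, ℤ) → ZMod m)} (hκ : Kap G m κ)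

theorem ext' (h : Lk N N₀ P G) (hκ : Kap G m κ) {x y : HA Qb (L G) m}
    (e : ∀ (γ : Gm N N₀) g, Rl P γ g → κ x g = κ y g) : x = y :=
  hκ.ext fun g hg => (h.ex hg).elim fun γ r => e γ g r

/-- the Kummer class of a coefficient -/
def rs (j : Fin (w + 1)) : ZC (Gm N N₀) w →+ HA Qb (L G) m :=
  AddMonoidHom.mk' (fun u => (hκ.onto _ (h.par hm u j)).choose) fun u v => ext' h hκ fun γ g r => by
    rw [map_add, Pi.add_apply, (hκ.onto _ (h.par hm u j)).choose_spec,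
      (hκ.onto _ (h.par hm v j)).choose_spec, (hκ.onto _ (h.par hm (u + v) j)).choose_spec,
      h.cf_eq _ j r, h.cf_eq _ j r, h.cf_eq _ j r]
    exact Int.cast_add _ _

theorem rs_ev (j : Fin (w + 1)) (u : ZC (Gm N N₀) w) {γ : Gm N N₀} {g : SL(2, ℤ)} (r : Rl P γ g) :
    κ (rs h hm hκ j u) g = ev m u j γ :=
  (congrFun (hκ.onto _ (h.par hm u j)).choose_spec g).trans (h.cf_eq u j r)

theorem rs_BZ (j : Fin (w + 1)) {u : ZC (Gm N N₀) w} (hu : u ∈ BZ _ w) : rs h hm hκ j u = 0 := by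
  obtain ⟨p, hp⟩ := mem_BZ.1 hu
  refine ext' h hκ fun γ g r => ?_
  have d := r.1.md ((dvd_mul_left m m).trans hm)
  rw [rs_ev h hm hκ j u r, map_zero, ev, hp, Pi.sub_apply, Int.cast_sub,
    act_one_mod w _ _ d.h01 d.h10 d.h00 d.h11, sub_self]
  rfl

theorem rs_van {u : ZC (Gm N N₀) w} (hu : ∀ j, rs h hm hκ j u = 0) : Van P m u := by
  intro γ c j
  obtain ⟨g, e⟩ := cj_dn h.ne 1 γ c.h01
  have := rs_ev h hm hκ j u (g := g) ⟨c, 1, e⟩
  rw [hu, map_zero] at this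
  exact this.symm

theorem kz (κ : Additive (HK Qb (L G) m) →+ (SL(2, ℤ) → ZMod m)) (a : ℤ)
    (y : HA Qb (L G) m) (g : SL(2, ℤ)) : κ (a • y) g = a * κ y g :=
  (congrFun (map_zsmul κ a y) g).trans (zsmul_eq_mul _ _)

theorem tor (hκ : Kap G m κ) {a b : ℤ} (e : (a : ZMod m) = b) (y : HA Qb (L G) m) :
    a • y = b • y :=
  hκ.ext fun g _ => by
    rw [kz, kz, e]

/-- **operators** -/
theorem rs_op (X : Mdl) {ι : Type} [Fintype ι] {α β : ι → M2}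
    (r : H527.L3.Rep (rho (Gm N N₀)) α) {a d : ℤ} (hα : ∀ i, Dp N N₀ P a d (α i))
    (hc : ∀ i, IsCoprime ((N * P : ℕ) : ℤ) (α i).det) (e : ∀ i, α i * Dd P = Dd P * β i)
    (hβ : ∀ i, 0 < (β i).det) {T : HA Qb (L G) m →+ HA Qb (L G) m}
    (hT : P027M.M.Rep (fun x => ∏ i, X.pb (β i) (hβ i) x) T) (j : Fin (w + 1))
    (u : ZC (Gm N N₀) w) :
    rs h hm hκ j (opZ r w u) = (a ^ (j : ℕ) * d ^ (w - (j : ℕ))) • T (rs h hm hκ j u) := by
  refine ext' h hκ fun γ g rl => ?_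
  obtain ⟨c, s, es⟩ := id rl
  have c1 : ∀ i, Dp N N₀ P 1 1 (rho _ (r.el γ i)) := fun i =>
    ((hα i).mul_one c (dd h.dvd P)).cancel (hα _) (dd h.dvd P) (dr N P) (hc _) (r.eq γ i)
  choose k hk using fun i => cj_dn h.ne s (r.el γ i) (c1 i).h01
  have r1 : ∀ i, Rl P (r.el γ i) (k i) := fun i => ⟨c1 i, s, hk i⟩
  have m0 : 0 < m := Nat.pos_of_ne_zero fun e => h.ne (by
    rw [e, mul_zero, zero_dvd_iff] at hm
    rw [hm, Nat.cast_zero])
  rw [rs_ev h hm hκ j _ rl, kz, hκ.prod m0 X β hβ hT _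
    (h.mem_of rl) (r.perm γ) k (fun i => h.mem_of (r1 i)) fun i => ?_,
    ev_op r fun i => (hα i).md ((dvd_mul_left m m).trans hm), Finset.mul_sum]
  · refine Finset.sum_congr rfl fun i _ => ?_
    rw [rs_ev h hm hκ j u (r1 i), Int.cast_mul, Int.cast_pow, Int.cast_pow]
  · refine Dd_cancel h.ne (smul_right_injective M2 s.ne_zero ?_)
    have e1 := hk i
    rw [← rho_apply] at e1
    show (s : ℤ) • (Dd P * (β i * g)) = (s : ℤ) • (Dd P * (k i * β (r.nx γ i)))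
    rw [← mul_assoc, ← e, mul_assoc, ← Matrix.mul_smul, ← es, ← mul_assoc, r.eq γ i, mul_assoc, e,
      ← mul_assoc, e1, Matrix.smul_mul, mul_assoc]

end rs

end Vale.Agent.P022K.G
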