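import Vale.Agent.P022D.G.Rows
import Vale.Agent.P022.H231.L3.Hec

/-! # P022 route K, block G: the deep group `1 + P Λ` and its Hecke representatives -/

set_option linter.all false

open scoped MatrixGroups ModularForm
open CongruenceSubgroup

noncomputable section

namespace Vale.Agent.P022K.G

open Vale.Agent.P022 Vale.Agent.P022.H161.CLat Vale.Agent.P022.H161.COp Vale.Agent.P022D.G
open Vale.Agent.P022.H527.L3 (rho rho_apply det_eq Fam fam_al Rep)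
open Vale.Agent.P022.H420.L3 (M2 Pw act act_diag act_one_mod cast_iff coe_mul det_alp)
open Vale.Agent.P022.H231.L3 (al IsDel det_al)

/-- the classes modulo the deep ideal -/
abbrev Dp (N N₀ P : ℕ) (a d : ℤ) (A : M2) : Prop := Cls (N * P : ℕ) P (N₀ * P : ℕ) a d A

theorem dl (N P : ℕ) : (N : ℤ) ∣ ((N * P : ℕ) : ℤ) := by exact_mod_cast Dvd.intro _ rfl

theorem dr (N P : ℕ) : (P : ℤ) ∣ ((N * P : ℕ) : ℤ) := by exact_mod_cast Dvd.intro_left N rfl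

theorem dd {N N₀ : ℕ} (hN : N₀ ∣ N) (P : ℕ) : ((N₀ * P : ℕ) : ℤ) ∣ ((N * P : ℕ) : ℤ) :=
  Int.natCast_dvd_natCast.2 (Nat.mul_dvd_mul_right hN P)

theorem Dp.low {N N₀ P : ℕ} {a d : ℤ} {A : M2} (h : Dp N N₀ P a d A) : Cls N 1 N₀ a d A :=
  h.mono (dl N P) (one_dvd _) (dl N₀ P)

theorem dp_one (N N₀ P : ℕ) : Dp N N₀ P 1 1 (1 : M2) := by constructor <;> simp

section del

variable {N N₀ P : ℕ} (hN : N₀ ∣ N) {a : ℤ} {δ : SL(2, ℤ)}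

include hN in
theorem dp_del (h : IsDel P (N * P : ℕ) a δ) : Dp N N₀ P (δ 0 0) a (δ : M2) :=
  ⟨h.1, h.2.1, by simp, (dd hN P).trans h.2.2⟩

theorem al_none (P : ℤ) (ℓ : ℕ) (δ : SL(2, ℤ)) :
    al P ℓ δ none = !![δ 0 0 * ℓ, δ 0 1; δ 1 0 * ℓ, δ 1 1] := by
  rw [al]
  ext i j
  fin_cases i <;> fin_cases j <;> simp [Matrix.mul_apply, Fin.sum_univ_two]

include hN in
theorem dp_al {ℓ : ℕ} (h : IsDel P (N * P : ℕ) ℓ δ) (i : Option (Fin ℓ)) :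
    Dp N N₀ P 1 ℓ (al P ℓ δ i) := by
  cases i with
  | some j => constructor <;> simp [al]
  | none =>
    rw [al_none]
    exact ⟨h.1.mul_right _, h.2.1, (dd hN P).trans h.mul_sub, (dd hN P).trans h.2.2⟩

theorem fam {ℓ : ℕ} (hl : ℓ.Prime) (hP : ¬ ℓ ∣ P) (h : IsDel P (N * P : ℕ) ℓ δ) :
    Fam P !![1, 0; 0, (ℓ : ℤ)] (al P ℓ δ) := by
  have e : al P ℓ δ = H527.L3.al P ℓ δ := by
    funext i
    cases i <;> rfl
  rw [e]
  refine fam_al P ℓ hl hP δ ?_ ?_ ?_ ?_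
  · have := (cast_iff P _ _).2 ((dr N P).trans h.mul_sub)
    push_cast at this ⊢
    rw [mul_comm, this]
  · exact (ZMod.intCast_zmod_eq_zero_iff_dvd _ _).2 ((dr N P).trans h.1)
  · exact (ZMod.intCast_zmod_eq_zero_iff_dvd _ _).2 h.2.1
  · have := (cast_iff P _ _).2 ((dr N P).trans h.2.2)
    push_cast at this ⊢
    exact this

theorem copP (ℓ : PA N) (hP : ¬ ℓ.1 ∣ P) : IsCoprime ((N * P : ℕ) : ℤ) (ℓ.1 : ℤ) :=
  Nat.isCoprime_iff_coprime.2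
    (ℓ.coprime.mul_right ((Nat.Prime.coprime_iff_not_dvd ℓ.2.1).2 hP)).symm

theorem ex_del (ℓ : PA N) (hP : ¬ ℓ.1 ∣ P) : ∃ δ, IsDel P (N * P : ℕ) ℓ.1 δ :=
  IsDel.exists _ _ _ (((copP ℓ hP).of_isCoprime_of_dvd_left (dr N P)).mul_left (copP ℓ hP)).symm

include hN

theorem repT (ℓ : PA N) (hP : ¬ ℓ.1 ∣ P) (h : IsDel P (N * P : ℕ) ℓ.1 δ) :
    Rep (rho (Gm N N₀)) (al P ℓ.1 δ) :=
  rep_of hN (fun i => (dp_al hN h i).low) (det_al P ℓ.1 δ) (by exact_mod_cast ℓ.2.1.ne_zero)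
    (cop ℓ) (fun ω hω => (fam ℓ.2.1 hP h).fac ω (by simp [Matrix.det_fin_two, hω]))
    fun i j ω ω' h1 e => (fam ℓ.2.1 hP h).inj i j ω ω' e (by rw [h1]; exact isCoprime_one_left)

theorem repD (h : IsDel P (N * P : ℕ) a δ) : Rep (rho (Gm N N₀)) (fun _ : Unit => (δ : M2)) :=
  rep_of (D := 1) hN (fun _ => (dp_del hN h).low) (fun _ => δ.det_coe) one_ne_zero
    isCoprime_one_right (fun ω _ => facD hN δ ω) fun _ _ _ _ _ _ => rfl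

/-- the deep representatives give `T_ℓ` up to a coboundary -/
theorem T_sub (ℓ : PA N) (hP : ¬ ℓ.1 ∣ P) (h : IsDel P (N * P : ℕ) ℓ.1 δ) {w : ℕ}
    (u : ZC (Gm N N₀) w) : rW hN w (wT ℓ) u - opZ (repT hN ℓ hP h) w u ∈ BZ (Gm N N₀) w := by
  have h0 : (ℓ.1 : ℤ) ≠ 0 := by exact_mod_cast ℓ.2.1.ne_zero
  rw [rW_T]
  exact opZ_equiv _ _
    (fun k => equiv_of hN (fun i => (dp_al hN h i).low) (det_al P ℓ.1 δ) h0 (cop ℓ)
      (fun ω hω => (fam ℓ.2.1 hP h).fac ω (by simp [Matrix.det_fin_two, hω]))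
      ((cls_alp (dm_spec ℓ 0) k).low hN) (det_alp 0 ℓ.1 _ k))
    (fun i => equiv_of hN (fun k => (cls_alp (dm_spec ℓ 0) k).low hN) (det_alp 0 ℓ.1 _) h0 (cop ℓ)
      (fun ω hω => (fam_alp ℓ (dm_spec ℓ 0)).fac ω (by simp [Matrix.det_fin_two, hω]))
      (dp_al hN h i).low (det_al P ℓ.1 δ i)) u

theorem eqD {δ δ' : SL(2, ℤ)} (h : Cls N 1 N₀ (δ 0 0) a (δ : M2))
    (h' : Cls N 1 N₀ (δ' 0 0) a (δ' : M2)) :
    ∃ _ : Unit, ∃ ε : Gm N N₀, (δ' : M2) = rho (Gm N N₀) ε * (δ : M2) := by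
  refine equiv_of (α := fun _ : Unit => (δ : M2)) (D := 1) hN (fun _ => h)
    (fun _ => δ.det_coe) one_ne_zero isCoprime_one_right (fun ω _ => facD hN δ ω) ?_ δ'.det_coe
  refine ⟨h'.h10, h'.h01, ?_, h'.h11⟩
  obtain ⟨x, hx⟩ := (Int.natCast_dvd_natCast.2 hN).trans h.h10
  obtain ⟨y, hy⟩ := (Int.natCast_dvd_natCast.2 hN).trans h'.h10
  obtain ⟨z, hz⟩ := h.h11
  obtain ⟨v, hv⟩ := h'.h11
  have d1 := det_eq δ
  have d2 := det_eq δ'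
  exact ⟨δ 0 0 * δ' 0 0 * (z - v) + δ 0 0 * δ' 0 1 * y - δ' 0 0 * δ 0 1 * x, by
    show δ' 0 0 - δ 0 0 = _
    linear_combination δ 0 0 * δ' 0 0 * (hz - hv) + δ 0 0 * d2 - δ' 0 0 * d1 +
      δ 0 0 * δ' 0 1 * hy - δ' 0 0 * δ 0 1 * hx⟩

theorem S_sub (ℓ : PA N) (h : IsDel P (N * P : ℕ) ℓ.1 δ) {w : ℕ} (u : ZC (Gm N N₀) w) :
    opZ (P022D.G.repD hN (dm_spec ℓ 0)) w u - opZ (repD hN h) w u ∈ BZ (Gm N N₀) w :=
  opZ_equiv _ _ (fun _ => eqD hN (dp_del hN h).low ((cls_del (dm_spec ℓ 0)).low hN))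
    (fun _ => eqD hN ((cls_del (dm_spec ℓ 0)).low hN) (dp_del hN h).low) u

end del

/-- the coefficient of index `j` modulo `m` -/
def ev {Γ : Subgroup SL(2, ℤ)} {w : ℕ} (m : ℕ) (u : ZC Γ w) (j : Fin (w + 1)) (γ : Γ) : ZMod m :=
  (((u : Γ → Fin (w + 1) → ℤ) γ j : ℤ) : ZMod m)

/-- a cocycle which vanishes modulo `m` on the deep group -/
def Van {N N₀ w : ℕ} (P m : ℕ) (u : ZC (Gm N N₀) w) : Prop :=
  ∀ γ : Gm N N₀, Dp N N₀ P 1 1 (rho _ γ) → ∀ j, ev m u j γ = 0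

/-- an operator whose matrices are diagonal modulo `m` -/
theorem ev_op {Γ : Subgroup SL(2, ℤ)} {w m : ℕ} {ι : Type} [Fintype ι] {α : ι → M2}
    (r : Rep (rho Γ) α) {a d : ℤ} (hα : ∀ i, Cls m m m a d (α i)) (u : ZC Γ w) (j : Fin (w + 1))
    (γ : Γ) : ev m (opZ r w u) j γ =
      ∑ i, (a : ZMod m) ^ (j : ℕ) * (d : ZMod m) ^ (w - (j : ℕ)) * ev m u j (r.el γ i) := by
  rw [ev, opZ_coe, Rep.hc, Finset.sum_apply, Int.cast_sum]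
  exact Finset.sum_congr rfl fun i _ =>
    act_diag w _ m a d (hα _).h01 (hα _).h10 (hα _).h00 (hα _).h11 _ j

theorem Dp.md {N N₀ P m : ℕ} (hm : m ∣ P) {a d : ℤ} {A : M2} (h : Dp N N₀ P a d A) :
    Cls m m m a d A :=
  have e := Int.natCast_dvd_natCast.2 hm
  h.mono (e.trans (dr N P)) e (e.trans (dr N₀ P))

end Vale.Agent.P022K.G
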